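import Vale.Agent.P236K.St5.Core
import Vale.Agent.P236Z.Cv.Div
import Vale.Agent.P236Z.Top.Fin

/-!
# P236, block St5: detection of `b_j`, Hopf invariants

From the two facts `PI4` and `TAU0` on `π_4 (H ⊗ H)`:
`hi2_of : HI2`, `det_of` (the class `b_j` is detected), `hopfM_of` (`HopfM' j → HopfM j`).
-/

open CategoryTheory MonoidalCategory MonObj Limits Pretriangulated

set_option linter.unusedSectionVars false

universe v u

namespace Vale.Agent.P236K.St5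

open Vale.Agent.P251 Vale.Agent.P251.S Vale.Agent.P251.T Vale.Agent.P251.M Vale.Agent.P251.F
  Vale.Agent.P251.I Vale.Agent.P251.H Vale.Agent.P236Z Vale.Agent.P236Z.Dt Vale.Agent.P236Z.Tr
  Vale.Agent.P251.M.EvenSpheres

section Gen

variable {T : Type u} [Category.{v} T] [Preadditive T] [HasZeroObject T]
    [HasShift T ℤ] [∀ n : ℤ, (shiftFunctor T n).Additive] [Pretriangulated T] [IsTriangulated T]
    [MonoidalCategory T] [SymmetricCategory T] [TensorTriangulated T] [MonoidalClosed T]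
    [HasCoproducts.{0} T] [HasProducts.{0} T] [StableCat T]

theorem ofz {X : T} (n m : ℤ) (a : (stdEven T).S n ⟶ X) :
    HRing.of (stdEven T) X n (m • a) = m • HRing.of (stdEven T) X n a :=
  (DirectSum.of ((stdEven T).Gr X) n).map_zsmul _ _

theorem ofa {X : T} (n : ℤ) (a b : (stdEven T).S n ⟶ X) :
    HRing.of (stdEven T) X n (a + b) = HRing.of (stdEven T) X n a + HRing.of (stdEven T) X n b :=
  (DirectSum.of ((stdEven T).Gr X) n).map_add _ _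

/-- Two Eilenberg-Mac Lane objects are compared by a map under the unit. -/
theorem exists_cmp [LocallySmall.{0} T] (F : SpaceFunctor T) {H H' : T} {e : 𝟙_ T ⟶ H}
    {e' : 𝟙_ T ⟶ H'} (hH : IsHF 3 e) (hH' : IsHF 3 e') : ∃ c : H ⟶ H', e ≫ c = e' := by
  obtain ⟨Z, a, r, d, hc, rfl, E⟩ := Cv.DivAux.exists_Z F hH
  have hb := X.bij_of_cofIn hH'.conc hc
  obtain ⟨r', hr⟩ : ∃ r', a ≫ r' = e' := hb.2 e'
  obtain ⟨c, hc'⟩ := E.desc₂ r' (hb.1 (by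
    change a ≫ _ = a ≫ 0
    rw [Preadditive.zsmul_comp, Category.id_comp, Preadditive.comp_zsmul, hr, comp_zero]
    exact (hH'.ord 3).2 (by norm_num)))
  exact ⟨c, by rw [Category.assoc, hc', hr]⟩

theorem af_cmp {H H' : T} {e : 𝟙_ T ⟶ H} (c : H ⟶ H') :
    ∀ {s : ℕ} {X Y : T} {f : X ⟶ Y}, AF e s f → AF (e ≫ c) s f
  | 0, _, _, _, _ => trivial
  | _ + 1, _, Y, _, ⟨_, _, h, e₁, hg, hh⟩ => by
    rw [e₁]
    refine AF.succ (af_cmp c hg) ?_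
    have h1 : hur (e ≫ c) Y = hur e Y ≫ (c ▷ Y) := by
      rw [hur, hur, comp_whiskerRight, Category.assoc]
    rw [Null, h1, ← Category.assoc, hh, zero_comp]

theorem hopf_pre {H Q W P P' : T} {q : Q ⟶ H} {f : W ⟶ Q} {y : P ⟶ H ⊗ H} (h : St.Hopf q f y)
    (m : ℤ) (a : P' ⟶ P) : St.Hopf q f (m • (a ≫ y)) := by
  obtain ⟨C, i, p, r, y', hC, hr, rfl⟩ := h
  exact ⟨C, i, p, r, m • (a ≫ y'), hC, hr, by rw [Preadditive.zsmul_comp, Category.assoc]⟩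

theorem exists_inv3 {c : ℤ} (hc : ¬ (3 : ℤ) ∣ c) : ∃ x y : ℤ, x * 3 + y * c = 1 :=
  (Int.prime_three.irreducible.coprime_iff_not_dvd.2 hc : IsCoprime 3 c)

variable {D : MUData T} {H : T} [MonObj H] [IsCommMonObj H] (hH : IsHF 3 η[H]) (u : D.R ⟶ H)
  [IsMonHom u] {t : Cob Laz 1} (ht : IsT1 3 t) {j : ℕ}

/-- the image of `t_1` in `π_4 (H ⊗ H)` -/
noncomputable def tau : (stdEven T).S 2 ⟶ H ⊗ H := D.evw 1 2 ⟨t, Det.isWt_t1 ht⟩ ≫ L2 u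

include hH in
theorem Nrm.of_one {h : Cob.wt Laz 1 (Det.w0 j)} {x : Cob.wt Laz 2 (Det.w0 j)} {c : ℤ}
    (hn : Nrm t j h x c) : HRing.of (stdEven T) _ _ (D.evw 1 _ h ≫ L2 u) =
      c • HRing.of (stdEven T) _ 2 (tau u ht) ^ 3 ^ (j + 1) := by
  have h1 := evw_L2 hH u (x := h - c • ⟨_, isWt_tpow ht j⟩) (by
    change h.1 - c • t ^ 3 ^ (j + 1) ∈ _
    rw [zsmul_eq_mul]
    exact hn.one)
  rw [map_sub, map_zsmul, Preadditive.sub_comp, sub_eq_zero, Preadditive.zsmul_comp] at h1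
  rw [h1, ofz, tau, ← HRing.map_of, ← HRing.map_of, D.of_evw, D.of_evw, map_pow, map_pow]

include hH in
theorem Nrm.of_two {h : Cob.wt Laz 1 (Det.w0 j)} {x : Cob.wt Laz 2 (Det.w0 j)} {c : ℤ}
    (hn : Nrm t j h x c) : HRing.of (stdEven T) _ _ (D.evw 2 _ x ≫ L3 u) =
      (-c) • bq (HRing.of (stdEven T) _ 2 (tau u ht ≫ (H ◁ inlM H H)) ^ 3 ^ j)
        (HRing.of (stdEven T) _ 2 (tau u ht ≫ inrM H (H ⊗ H)) ^ 3 ^ j) := by
  have h1 := evw_L3 hH u (x := x + c • ⟨_, isWt_bj ht j⟩) (by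
    change x.1 + c • bj t j ∈ _
    rw [zsmul_eq_mul]
    exact hn.two)
  rw [map_add, map_zsmul, Preadditive.add_comp, add_eq_zero_iff_eq_neg, Preadditive.zsmul_comp,
    ← neg_smul] at h1
  have e2 : Am.map D.R (Fin.succAbove (2 : Fin 3)) ≫ L3 u = L2 u ≫ (H ◁ inlM H H) := by
    refine Am.hom_ext fun i => ?_
    rw [Am.v_map_assoc, L3, L2, Am.v_lift, Am.v_lift_assoc]
    fin_cases i
    · change u ≫ inlM H (H ⊗ H) = (u ≫ inlM H H) ≫ _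
      rw [Category.assoc, inlM_whiskerLeft]
    · change u ≫ inlM H H ≫ inrM H (H ⊗ H) = (u ≫ inrM H H) ≫ _
      rw [Category.assoc, inrM_whiskerLeft]
  have e0 : Am.map D.R (Fin.succAbove (0 : Fin 3)) ≫ L3 u = L2 u ≫ inrM H (H ⊗ H) := by
    refine Am.hom_ext fun i => ?_
    rw [Am.v_map_assoc, L3, L2, Am.v_lift, Am.v_lift_assoc]
    fin_cases i
    · exact (Category.assoc _ _ _).symm
    · exact (Category.assoc _ _ _).symm
  rw [h1, ofz, ← HRing.map_of, D.of_evw, tau, Category.assoc, Category.assoc, ← e2, ← e0,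
    ← Category.assoc, ← Category.assoc, D.evw_map, D.evw_map, ← HRing.map_of, ← HRing.map_of,
    D.of_evw, D.of_evw]
  change _ • HRing.map (L3 u) (D.ev 2 (bj t j)) = _
  rw [bj, map_bq, map_bq, map_pow, map_pow, map_pow, map_pow]

end Gen

open Vale.Agent.P251.St Vale.Agent.P251.St.SHCat St

section Sph

variable {T : SHCat}

theorem exists_cube {A : T.C} {n m : ℤ} (h : n + (n + n) = m) (β : (stdEven T.C).S n ≅ A) :
    ∃ β₃ : (stdEven T.C).S m ≅ A ⊗ A ⊗ A, ∀ (R : T.C) [MonObj R] (x y z : A ⟶ R),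
      HRing.of (stdEven T.C) R m (β₃.hom ≫ mul3 x y z) = HRing.of (stdEven T.C) R n (β.hom ≫ x) *
        (HRing.of (stdEven T.C) R n (β.hom ≫ y) * HRing.of (stdEven T.C) R n (β.hom ≫ z)) := by
  refine ⟨((stdEven T.C).mu n (n + n) m h).symm ≪≫
    (β ⊗ᵢ (((stdEven T.C).mu n n (n + n) rfl).symm ≪≫ (β ⊗ᵢ β))), fun R _ x y z => ?_⟩
  rw [of_mul_of (p := n + n) rfl, of_mul_of h]
  congr 1
  simp only [mul3, gmul, EvenSpheres.ext, Iso.trans_hom, Iso.symm_hom, tensorIso_hom, Category.assoc,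
    tensorHom_comp_tensorHom_assoc, Category.comp_id]

theorem exists_big (β₀ : (stdEven T.C).S 2 ≅ P236Z.St.sph T 4) (j : ℕ) :
    ∃ β : (stdEven T.C).S (2 * 3 ^ j) ≅ bigS T j, ∀ (R : T.C) [MonObj R] [IsCommMonObj R]
      (x : P236Z.St.sph T 4 ⟶ R), HRing.of (stdEven T.C) R _ (β.hom ≫ frob x j) =
        HRing.of (stdEven T.C) R 2 (β₀.hom ≫ x) ^ 3 ^ j := by
  induction j with
  | zero => exact ⟨β₀, fun R _ _ x => (pow_one _).symm⟩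
  | succ j ih =>
    obtain ⟨β, hβ⟩ := ih
    obtain ⟨β₃, h₃⟩ := exists_cube (m := 2 * 3 ^ (j + 1)) (by ring) β
    refine ⟨β₃, fun R _ _ x => (h₃ R _ _ _).trans ?_⟩
    rw [hβ, pow_succ, pow_mul]
    ring

theorem of_cob (β₀ : (stdEven T.C).S 2 ≅ P236Z.St.sph T 4) (j : ℕ) :
    ∃ β : (stdEven T.C).S (Det.w0 j) ≅ bigS T (j + 1), ∀ (H : T.C) [MonObj H] [IsCommMonObj H]
      (ξ : P236Z.St.sph T 4 ⟶ H ⊗ H), HRing.of (stdEven T.C) _ _ (β.hom ≫ cob ξ j) =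
        bq (HRing.of (stdEven T.C) _ 2 ((β₀.hom ≫ ξ) ≫ (H ◁ inlM H H)) ^ 3 ^ j)
          (HRing.of (stdEven T.C) _ 2 ((β₀.hom ≫ ξ) ≫ inrM H (H ⊗ H)) ^ 3 ^ j) := by
  obtain ⟨β, hβ⟩ := exists_big β₀ j
  obtain ⟨β₃, h₃⟩ := exists_cube (m := Det.w0 j) (by rw [Det.w0]; ring) β
  refine ⟨β₃, fun H _ _ ξ => ?_⟩
  have h1 : cob ξ j = mul3 (frob (ξ ≫ (H ◁ inlM H H)) j) (frob (ξ ≫ inrM H (H ⊗ H)) j)
      (frob (ξ ≫ inrM H (H ⊗ H)) j) + mul3 (frob (ξ ≫ (H ◁ inlM H H)) j)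
        (frob (ξ ≫ (H ◁ inlM H H)) j) (frob (ξ ≫ inrM H (H ⊗ H)) j) := by
    rw [inlM, inrM, ← id_tensorHom, ← id_tensorHom, ← tensorHom_id]
    rfl
  have h2 : β₃.hom ≫ cob ξ j = _ := (congrArg (β₃.hom ≫ ·) h1).trans (Preadditive.comp_add ..)
  refine (congrArg _ h2).trans ?_
  rw [ofa, h₃, h₃, hβ, hβ, bq, Category.assoc, Category.assoc]
  ring

end Sph

/-- `π_4 (H ⊗ H)` is generated by each nonzero element. -/
def PI4 : Prop :=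
  ∀ (T : SHCat) (_ : Susp T) (H : T.C) [MonObj H] [IsCommMonObj H], Tr.IsHF 3 η[H] →
    ∀ ξ : P236Z.St.sph T 4 ⟶ H ⊗ H, ξ ≠ 0 → ∀ g : P236Z.St.sph T 4 ⟶ H ⊗ H, ∃ m : ℤ, g = m • ξ

/-- The image of `t_1` in `π_4 (H ⊗ H)` is not zero. -/
def TAU0 : Prop :=
  ∀ (T : SHCat) (S : Susp T) (H : T.C) [MonObj H] [IsCommMonObj H], Tr.IsHF 3 η[H] →
    ∀ (D : MUData T.C), MUUniv (lineIso S.toSpaceFunctor) D → ∀ (u : D.R ⟶ H) [IsMonHom u]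
      (t : Cob Laz 1) (ht : IsT1 3 t),
      e2 D ⟨t, Det.isWt_t1 ht⟩ (u ≫ inlM H H) (u ≫ inrM H H) ≠ 0

/-- A unit multiple of `b_j` is the Hurewicz image of a class of order at most three. -/
def DET (j : ℕ) : Prop :=
  ∀ (T : SHCat) (_ : Susp T) (H : T.C) [MonObj H] [IsCommMonObj H], Tr.IsHF 3 η[H] →
    ∀ (A : P236Z.St.AdamsTower η[H]) (ξ : P236Z.St.sph T 4 ⟶ H ⊗ H), ξ ≠ 0 → ∀ b, IsB A ξ j b →
      ∃ (w : P236Z.St.sph T (stem j) ⟶ A.X 2) (c : ℤ), ¬ (3 : ℤ) ∣ c ∧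
        (3 : ℤ) • (w ≫ A.toSphere 2) = 0 ∧ w ≫ P236Z.St.hur η[H] (A.X 2) = c • b

/-- The Kervaire class exists in the tower of `MU` of every model. -/
def KERV (j : ℕ) : Prop :=
  ∀ (T : SHCat) (_ : Susp T) (D : MUData T.C) (U : UnitCof D.R) (t : Cob Laz 1), IsT1 3 t →
    Kerv D U t j

section Main

variable {T : SHCat} (S : Susp T)

theorem exists_mu : ∃ D : MUData T.C, MUUniv (lineIso S.toSpaceFunctor) D := by
  have := locallySmall_self.{0} T.C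
  obtain ⟨M⟩ := nonempty_MUMon S.toSpaceFunctor (stdEven T.C) (lineIso S.toSpaceFunctor)
  obtain ⟨b⟩ := M.nonempty_muBasis
  exact ⟨_, M.muUniv b⟩

theorem hw0 (j : ℕ) : (2 * 3 ^ (j + 1) - 1 : ℤ) + 1 = Det.w0 j := by
  rw [Det.w0]
  ring

theorem w0_ne (j : ℕ) : Det.w0 j ≠ 0 := by
  rw [Det.w0]
  positivity

/-- `S^{2 w} ≅ S^{stem j}` -/
noncomputable def stemIso (T : SHCat) (j : ℕ) :
    (stdEven T.C).S (2 * 3 ^ (j + 1) - 1) ≅ (𝟙_ T.C)⟦stem j⟧ :=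
  B.sphE T.C _ ≪≫ eqToIso (by congr 2; rw [stem]; ring)

theorem dist_stem {M : T.C} {i : 𝟙_ T.C ⟶ M} {δ : M ⟶ (𝟙_ T.C)⟦(1 : ℤ)⟧}
    (hM : P251.H.Dist ((3 : ℤ) • 𝟙 (𝟙_ T.C)) i δ) (j : ℕ) :
    ∃ (i' : (stdEven T.C).S (2 * 3 ^ (j + 1) - 1) ⟶ (𝟙_ T.C)⟦stem j⟧ ⊗ M) (δ' : _),
      P251.H.Dist ((3 : ℤ) • 𝟙 _) i' δ' :=
  ⟨(stemIso T j).hom ≫ red i _, _, dist_iso (dist_red hM _) (stemIso T j) (stemIso T j)
    (Iso.refl _) (by simp) (Category.comp_id _)⟩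

variable {H : T.C} [MonObj H] [IsCommMonObj H] (hH : Tr.IsHF 3 η[H])

include hH in
theorem exists_tau (h4 : PI4) (h0 : TAU0) {D : MUData T.C}
    (hU : MUUniv (lineIso S.toSpaceFunctor) D) (u : D.R ⟶ H) [IsMonHom u] {t : Cob Laz 1}
    (ht : IsT1 3 t) {ξ : P236Z.St.sph T 4 ⟶ H ⊗ H} (hξ : ξ ≠ 0)
    (β₀ : (stdEven T.C).S 2 ≅ P236Z.St.sph T 4) :
    ∃ m : ℤ, ¬ (3 : ℤ) ∣ m ∧ tau u ht = m • (β₀.hom ≫ ξ) := by
  obtain ⟨m, hm⟩ := h4 T S H hH ξ hξ (β₀.inv ≫ tau u ht)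
  rw [Iso.inv_comp_eq, Preadditive.comp_zsmul] at hm
  refine ⟨m, ?_, hm⟩
  rintro ⟨m, rfl⟩
  rw [mul_smul, three_ten hH] at hm
  exact h0 T S H hH D hU u t ht hm

include hH in
/-- The Hopf invariant of a normalized lift. -/
theorem hopf_frob (h4 : PI4) (h0 : TAU0) {D : MUData T.C}
    (hU : MUUniv (lineIso S.toSpaceFunctor) D) {U : UnitCof D.R} {t : Cob Laz 1}
    (ht : IsT1 3 t) {ξ : P236Z.St.sph T 4 ⟶ H ⊗ H} (hξ : ξ ≠ 0) {j : ℕ} {w₀ : ℤ}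
    {hw : w₀ + 1 = Det.w0 j} {C : T.C} {i : (stdEven T.C).S w₀ ⟶ C}
    {δ : C ⟶ ((stdEven T.C).S w₀)⟦(1 : ℤ)⟧} (hC : P251.H.Dist ((3 : ℤ) • 𝟙 _) i δ) {f : C ⟶ 𝟙_ T.C}
    {h : Cob.wt Laz 1 (Det.w0 j)} {x : Cob.wt Laz 2 (Det.w0 j)} {c : ℤ} (hc : ¬ (3 : ℤ) ∣ c)
    (hn : Nrm t j h x c) (hF : FD D U hw δ f h) : St.Hopf η[H] f (frob ξ (j + 1)) := by
  obtain ⟨u, hu⟩ := exists_thom D hH.conc
  let β₀ : (stdEven T.C).S 2 ≅ P236Z.St.sph T 4 := B.sphE T.C 2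
  obtain ⟨m, hm, hτ⟩ := exists_tau S hH h4 h0 hU u ht hξ β₀
  obtain ⟨β, hβ⟩ : ∃ β : (stdEven T.C).S (Det.w0 j) ≅ bigS T (j + 1),
      HRing.of (stdEven T.C) (H ⊗ H) (Det.w0 j) (β.hom ≫ frob ξ (j + 1)) =
        HRing.of (stdEven T.C) (H ⊗ H) 2 (β₀.hom ≫ ξ) ^ 3 ^ (j + 1) :=
    (exists_big β₀ (j + 1)).imp fun β hβ => hβ _ ξ
  have h1 : D.evw 1 _ h ≫ L2 u = (c * m ^ 3 ^ (j + 1)) • (β.hom ≫ frob ξ (j + 1)) := by
    apply MUData.of_injective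
    rw [hn.of_one hH u ht, hτ, ofz, ofz, smul_pow, smul_smul, hβ]
  obtain ⟨a, b, hab⟩ := exists_inv3 (c := c * m ^ 3 ^ (j + 1)) fun h3 =>
    (Int.prime_three.dvd_or_dvd h3).elim hc fun h5 => hm (Int.prime_three.dvd_of_dvd_pow h5)
  have h2 := hopf_pre (hF.hopf hH u hC (w0_ne j)) b β.inv
  have h3 : b • (β.inv ≫ D.evw 1 _ h ≫ L2 u) = frob ξ (j + 1) := by
    have h6 : β.inv ≫ D.evw 1 _ h ≫ L2 u = (c * m ^ 3 ^ (j + 1)) • frob ξ (j + 1) :=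
      (congrArg (β.inv ≫ ·) h1).trans (by
        simp only [Preadditive.comp_zsmul, Iso.inv_hom_id_assoc])
    rw [h6, smul_smul, ← sub_eq_iff_eq_add'.2 hab.symm, sub_smul, one_smul, mul_smul,
      three_ten hH, smul_zero, sub_zero]
  exact h3 ▸ h2

end Main

theorem hi1' : HI1 := fun _ _ _ _ _ f hW _ y hP h hy => hi1 f hW y hP h hy

theorem hi2_of (h4 : PI4) (h0 : TAU0) : HI2 := by
  intro T S H _ _ hH M i δ hM ξ hξ j f hf
  obtain ⟨D, hU⟩ := exists_mu S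
  obtain ⟨U⟩ := exists_unitCof D.R
  obtain ⟨t, ht⟩ := T1 3
  obtain ⟨i', δ', hC⟩ := dist_stem hM j
  obtain ⟨h, x, c, hc, hn, hF⟩ := fd_of_not_af D U ht hH (hw0 j) hC f hf
  exact hopf_frob S hH h4 h0 hU ht hξ hC hc hn hF

theorem kerv0 : KERV 0 := fun _ _ D U _ ht => kerv_zero D U ht

theorem kerv_of_hopfM {j : ℕ} (h : St.HopfM j) : KERV j := by
  intro T S D U t ht
  have := locallySmall_self.{0} T.C
  obtain ⟨H, _, _, hH⟩ := exists_HFmon S.toSpaceFunctor (p := 3) (by norm_num)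
  obtain ⟨M, i, δ, hM⟩ := exists_cone ((3 : ℤ) • 𝟙 (𝟙_ T.C))
  obtain ⟨f, hf⟩ := h T S H _ hH M i δ hM
  obtain ⟨i', δ', hC⟩ := dist_stem hM j
  exact kerv_of_f D U ht hH (hw0 j) hC f hf

theorem kerv_of_hopfM' {j : ℕ} (h : St.HopfM' j) : KERV j := by
  intro T S D U t ht
  have := locallySmall_self.{0} T.C
  obtain ⟨H, _, _, hH⟩ := exists_HFmon S.toSpaceFunctor (p := 3) (by norm_num)
  obtain ⟨M, i, δ, hM⟩ := exists_cone ((3 : ℤ) • 𝟙 (𝟙_ T.C))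
  obtain ⟨g, hg⟩ := h T S H _ hH M i δ hM
  let c : ((stdEven T.C).S (2 * 3 ^ (j + 1) - 1))⟦(1 : ℤ)⟧ ≅ (𝟙_ T.C)⟦stem j + 1⟧ :=
    (shiftFunctor T.C (1 : ℤ)).mapIso (stemIso T j) ≪≫
      ((shiftFunctorAdd T.C (stem j) 1).app _).symm
  refine kerv_of_g D U ht hH (hw0 j) hM (c.hom ≫ g) fun h1 => hg ?_
  have h2 := h1.pre c.inv
  rwa [Iso.inv_hom_id_assoc] at h2

theorem det_of (h4 : PI4) (h0 : TAU0) {j : ℕ} (hK : KERV j) : DET j := by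
  intro T S H _ _ hH A ξ hξ b ⟨c₀, hb⟩
  obtain ⟨D, hU⟩ := exists_mu S
  obtain ⟨U⟩ := exists_unitCof D.R
  obtain ⟨t, ht⟩ := T1 3
  obtain ⟨u, hu⟩ := exists_thom D hH.conc
  obtain ⟨h, x, c, hc, hn, hk⟩ := hK T S D U t ht
  let β₀ : (stdEven T.C).S 2 ≅ P236Z.St.sph T 4 := B.sphE T.C 2
  obtain ⟨m, hm, hτ⟩ := exists_tau S hH h4 h0 hU u ht hξ β₀
  obtain ⟨β, hβ⟩ := of_cob β₀ j
  have hex : ∀ Y : T.C, St.exch H Y = (csh H 1 Y).hom := fun Y => by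
    rw [csh_one, ← id_tensorHom]
    rfl
  have hd : ∀ s, unitMap H (A.X s) ≫ A.d s = 0 := fun s => (Top.tower_dist A s).zero₂₃
  obtain ⟨W, s, hW, hW'⟩ := hk.push u hn.dh ((H ◁ A.base.inv) ≫ A.d 0)
    ((csh H 1 (A.X 1)).hom ≫ (A.d 1)⟦(1 : ℤ)⟧')
    (by rw [← unitMap_nat_assoc, hd, comp_zero])
    (by rw [← Category.assoc, unitMap_csh, ← Functor.map_comp, hd, Functor.map_zero])
  obtain ⟨w₁, hw₁⟩ := (shiftFunctor T.C (1 : ℤ)).map_surjective (c₀.hom ≫ β.inv ≫ W)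
  obtain ⟨w, rfl⟩ := (shiftFunctor T.C (1 : ℤ)).map_surjective w₁
  have h1 : D.evw 2 _ x ≫ L3 u = (-c * m ^ 3 ^ (j + 1)) • (β.hom ≫ cob ξ j) := by
    apply MUData.of_injective
    rw [hn.of_two hH u ht, hτ, ofz, hβ, Preadditive.zsmul_comp, Preadditive.zsmul_comp, ofz, ofz,
      smul_pow, smul_pow, bq, bq]
    simp only [zsmul_eq_mul]
    push_cast
    ring
  refine ⟨w, -c * m ^ 3 ^ (j + 1), fun h3 => (Int.prime_three.dvd_or_dvd h3).elim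
    (fun h5 => hc (dvd_neg.1 h5)) fun h5 => hm (Int.prime_three.dvd_of_dvd_pow h5), ?_, ?_⟩
  · have h2 : (3 : ℤ) • (w ≫ A.g 1) = 0 := by
      apply (shiftFunctor T.C (1 : ℤ)).map_injective
      apply (shiftFunctor T.C (1 : ℤ)).map_injective
      rw [Functor.map_zsmul, Functor.map_zsmul, Functor.map_comp, Functor.map_comp, hw₁,
        ← Preadditive.zsmul_comp, ← Preadditive.comp_zsmul, ← Preadditive.comp_zsmul, hW,
        Functor.map_zero, Functor.map_zero]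
      simp only [Category.assoc]
      rw [← Functor.map_comp, (Top.tower_dist A 1).zero₃₁, Functor.map_zero]
      simp only [comp_zero]
    change (3 : ℤ) • (w ≫ A.g 1 ≫ A.toSphere 1) = 0
    rw [← Category.assoc, ← Preadditive.zsmul_comp, h2, zero_comp]
  · have hp : proj A = (H ◁ ((H ◁ ((ρ_ H).inv ≫ (H ◁ A.base.inv) ≫ A.d 0)) ≫
        (csh H 1 (A.X 1)).hom ≫ (A.d 1)⟦(1 : ℤ)⟧')) ≫ (csh H 1 _).hom ≫
          (csh H 1 (A.X 2)).hom⟦(1 : ℤ)⟧' := by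
      rw [← hex, ← hex, ← hex, ← id_tensorHom, ← id_tensorHom, ← id_tensorHom]
      rfl
    apply (shiftFunctor T.C (1 : ℤ)).map_injective
    apply (shiftFunctor T.C (1 : ℤ)).map_injective
    rw [Top.hur_eq, Functor.map_zsmul, Functor.map_zsmul, hb, Functor.map_comp, Functor.map_comp,
      hw₁, hp]
    change _ ≫ ((unitMap H (A.X 2))⟦(1 : ℤ)⟧')⟦(1 : ℤ)⟧' = _
    rw [← unitMap_csh, Functor.map_comp, ← unitMap_csh]
    simp only [Category.assoc]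
    rw [reassoc_of% hW', reassoc_of% h1]
    simp only [Preadditive.zsmul_comp, Preadditive.comp_zsmul, Category.assoc,
      Iso.inv_hom_id_assoc]

theorem hopfM_of_kerv (h4 : PI4) (h0 : TAU0) (h3 : HI3) {j : ℕ} (hK : KERV j) : St.HopfM j := by
  intro T S H' e he M i δ hM
  have := locallySmall_self.{0} T.C
  obtain ⟨H, _, _, hH⟩ := exists_HFmon S.toSpaceFunctor (p := 3) (by norm_num)
  obtain ⟨q, hq⟩ := exists_cmp S.toSpaceFunctor he hH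
  obtain ⟨D, hU⟩ := exists_mu S
  obtain ⟨U⟩ := exists_unitCof D.R
  obtain ⟨t, ht⟩ := T1 3
  obtain ⟨u, hu⟩ := exists_thom D hH.conc
  obtain ⟨h, x, c, hc, hn, hk⟩ := hK T S D U t ht
  obtain ⟨i', δ', hC⟩ := dist_stem hM j
  obtain ⟨f, hF⟩ := hk.fd (hw0 j) hC
  let β₀ : (stdEven T.C).S 2 ≅ P236Z.St.sph T 4 := B.sphE T.C 2
  have hξ : β₀.inv ≫ tau u ht ≠ 0 := fun h1 =>
    h0 T S H hH D hU u t ht ((Preadditive.IsIso.comp_left_eq_zero _ _).1 h1)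
  obtain ⟨β, -⟩ := exists_big β₀ (j + 1)
  refine ⟨f, fun h1 => hi1 f (fun g => ?_) _ (fun g => ?_)
    (hopf_frob S hH h4 h0 hU ht hξ hC hc hn hF) (h3 T S H hH _ hξ _) (hq ▸ af_cmp q h1)⟩
  · obtain ⟨a, rfl⟩ := hC.rot.rot.rot.desc₃ g (by
      rw [← cancel_epi (eO _).inv, hH.conc _ (by omega) (_ ≫ _), comp_zero])
    rw [← Iso.inv_hom_id_assoc (eS (hw0 j)) a, sph_zero hH (w0_ne j) (_ ≫ a), comp_zero,
      comp_zero]
  · rw [← Iso.inv_hom_id_assoc β g, sph_zero hH (by positivity) (β.hom ≫ g), comp_zero]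

theorem hopfM_of (h4 : PI4) (h0 : TAU0) (h3 : HI3) {j : ℕ} (h : St.HopfM' j) : St.HopfM j :=
  hopfM_of_kerv h4 h0 h3 (kerv_of_hopfM' h)

end Vale.Agent.P236K.St5
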