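import Vale.Agent.P236K.St5.NonB
import Vale.Agent.P236K.St.Pi4
import Vale.Agent.P236K.D3.Fin
import Vale.Agent.P236K.D3.Plumb
import Vale.Agent.P236K.SS.One

/-!
# P236: the final statement from the core and the stem `34`
-/

open CategoryTheory MonoidalCategory MonObj

namespace Vale.Agent.P236K.St5

theorem pi4 : PI4 := by
  intro T S H _ _ hH ξ hξ g
  obtain ⟨ξ₀, -, h⟩ := St.pi4 T S H hH
  obtain ⟨m, rfl⟩ := h ξ
  obtain ⟨n, rfl⟩ := h g
  obtain ⟨x, y, hxy⟩ := exists_inv3 (c := m) (by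
    rintro ⟨m, rfl⟩
    exact hξ (by rw [mul_smul, three_ten hH]))
  refine ⟨n * y, ?_⟩
  rw [mul_smul, smul_smul y, ← sub_eq_iff_eq_add'.2 hxy.symm, sub_smul, one_smul, mul_smul,
    three_ten hH, smul_zero, sub_zero]

theorem xiStmt : D3.XiStmt := fun T S H _ _ hH => (St.pi4 T S H hH).imp fun _ h => h.1

theorem hi2 : St.HI2 := hi2_of' pi4

theorem hi3 : St.HI3 := hi3_of pi4

theorem st : St.ST := st_of' pi4

theorem final_of_kerv (k2 : KERV 2) (k3 : KERV 3) (h1 : St.NoOne) : St.FINAL :=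
  final_of' pi4 k2 k3 h1

theorem kerv_three (h : D3.CoreStmt) : KERV 3 := kerv_of_hopfM' (D3.d3Stmt xiStmt hi2 hi3 h)

theorem final_of_coreC (h : D3.CoreC) (h1 : St.NoOne) : St.FINAL :=
  final_of_kerv (D3.kerv_of_coreC h) (kerv_three (D3.core_of pi4 tau0 hi3 h)) h1

theorem final_of_core (h : D3.CoreC) (h1 : SS.J1Alg) : St.FINAL :=
  final_of_coreC h (SS.noOne_of h1)

end Vale.Agent.P236K.St5
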