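import Vale.Agent.P236K.St5.Fin
import Vale.Agent.P236Z.Top.All

/-!
# P236, block St5: the final statement from the blocks
-/

open CategoryTheory MonoidalCategory MonObj Limits Pretriangulated

namespace Vale.Agent.P236K.St5

open Vale.Agent.P251 Vale.Agent.P251.S Vale.Agent.P251.M Vale.Agent.P251.F Vale.Agent.P251.I
  Vale.Agent.P236Z Vale.Agent.P236Z.Dt Vale.Agent.P251.St Vale.Agent.P251.St.SHCat
  Vale.Agent.P236Z.St Vale.Agent.P236K.St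

/-- The class `b_j` is not hit by a differential. -/
def NB (j : ℕ) : Prop :=
  ∀ (T : SHCat) (_ : Susp T) (H : T.C) [MonObj H] [IsCommMonObj H], Tr.IsHF 3 η[H] →
    ∀ (A : AdamsTower η[H]) (ξ : sph T 4 ⟶ H ⊗ H), ξ ≠ 0 → ∀ b, IsB A ξ j b → ¬ A.IsBoundary 2 b

variable {T : SHCat} {H : T.C} [MonObj H] [IsCommMonObj H] (A : AdamsTower η[H])

omit [IsCommMonObj H] in
theorem exists_isB (ξ : sph T 4 ⟶ H ⊗ H) (j : ℕ) : ∃ b, IsB A ξ j b := by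
  obtain ⟨β, -⟩ := exists_big (T := T) (B.sphE T.C 2) (j + 1)
  let c : sus (sus (sph T (stem j))) ≅ bigS T (j + 1) :=
    ((shiftFunctor T.C (1 : ℤ)).mapIso ((shiftFunctor T.C (1 : ℤ)).mapIso (stemIso T j))).symm ≪≫
      (eS (hw0 j)).symm ≪≫ β
  obtain ⟨b₁, h₁⟩ := (shiftFunctor T.C (1 : ℤ)).map_surjective (c.hom ≫ cob ξ j ≫ proj A)
  obtain ⟨b, rfl⟩ := (shiftFunctor T.C (1 : ℤ)).map_surjective b₁
  exact ⟨b, c, h₁⟩

omit [IsCommMonObj H] in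
theorem detects (hH : Tr.IsHF 3 η[H]) {n : ℤ} {b : sph T n ⟶ H ⊗ A.X 2} (hb : ¬ A.IsBoundary 2 b)
    (w : sph T n ⟶ A.X 2) {c : ℤ} (hc : ¬ (3 : ℤ) ∣ c) (h3 : (3 : ℤ) • (w ≫ A.toSphere 2) = 0)
    (hw : w ≫ hur η[H] (A.X 2) = c • b) :
    Survives A b ∧ ∃ θ : sph T n ⟶ T.one, addOrderOf θ = 3 ∧ Detects A b θ := by
  obtain ⟨x, y, hxy⟩ := exists_inv3 hc
  have h1 : y • c • b = b := by
    rw [smul_smul, ← sub_eq_iff_eq_add'.2 hxy.symm, sub_smul, one_smul, mul_smul, three_ten hH,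
      smul_zero, sub_zero]
  have hd : ∀ s, hur η[H] (A.X s) ≫ A.d s = 0 := fun s => P251.H.Dist.zero₂₃ (A.dist s)
  have hg : ∀ s, A.g s ≫ hur η[H] (A.X s) = 0 := fun s => P251.H.Dist.zero₁₂ (A.dist s)
  have h2 : ¬ A.FiltGe 3 (w ≫ A.toSphere 2) := by
    rintro ⟨w', hw'⟩
    refine hb ⟨y • (w - w' ≫ A.g 2), ?_, ?_⟩
    · have h4 : w' ≫ A.g 2 ≫ A.toSphere 2 = w ≫ A.toSphere 2 := hw'
      change (y • (w - w' ≫ A.g 2)) ≫ A.toSphere 2 = 0
      rw [Preadditive.zsmul_comp, Preadditive.sub_comp, Category.assoc, h4, sub_self, smul_zero]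
    · change (y • (w - w' ≫ A.g 2)) ≫ hur η[H] (A.X 2) = b
      rw [Preadditive.zsmul_comp, Preadditive.sub_comp, Category.assoc, hg, comp_zero, sub_zero, hw,
        h1]
  refine ⟨⟨fun r => ⟨0, ?_⟩, hb⟩, w ≫ A.toSphere 2, ?_, h2, w, c, hc, rfl, 0, zero_comp, ?_⟩
  · change 0 ≫ _ = b ≫ A.d 2
    rw [zero_comp, ← h1, ← hw, Preadditive.zsmul_comp, Category.assoc, hd, comp_zero, smul_zero]
  · refine addOrderOf_eq_prime (p := 3) ?_ fun h => h2 ⟨0, ?_⟩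
    · rw [← h3, ← natCast_zsmul, Nat.cast_ofNat]
    · rw [h]
      exact zero_comp
  · change 0 ≫ _ = w ≫ hur η[H] (A.X 2) - c • b
    rw [zero_comp, hw, sub_self]

theorem final_of (h4 : PI4) (h0 : TAU0) (n0 : NB 0) (n2 : NB 2) (n3 : NB 3) (k2 : KERV 2)
    (k3 : KERV 3) (h1 : NoOne) : FINAL := by
  refine ⟨nonempty_susp, fun T S => ⟨?_, fun H _ _ he => ⟨Top.nonempty_tower _, ?_,
    fun A ξ hξ j => ⟨exists_isB A ξ j, fun b hb => ?_⟩⟩⟩⟩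
  · have := locallySmall_self.{0} T.C
    obtain ⟨H, _, _, hH⟩ := exists_HFmon S.toSpaceFunctor (p := 3) (by norm_num)
    exact ⟨H, _, ‹_›, (Top.isHF_iff 3).2 hH⟩
  · have hH := (Top.isHF_iff 3).1 he
    obtain ⟨D, hU⟩ := exists_mu S
    obtain ⟨t, ht⟩ := T1 3
    obtain ⟨u, hu⟩ := exists_thom D hH.conc
    let β₀ : (stdEven T.C).S 2 ≅ sph T 4 := B.sphE T.C 2
    have hξ : β₀.inv ≫ tau u ht ≠ 0 := fun h1 =>
      h0 T S H hH D hU u t ht ((Preadditive.IsIso.comp_left_eq_zero _ _).1 h1)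
    exact ⟨_, hξ, h4 T S H hH _ hξ⟩
  · have hH := (Top.isHF_iff 3).1 he
    have key : ∀ (_ : NB j) (_ : KERV j), Survives A b ∧
        ∃ θ : sph T (stem j) ⟶ T.one, addOrderOf θ = 3 ∧ Detects A b θ := fun n k => by
      obtain ⟨w, c, hc, h3, hw⟩ := det_of h4 h0 k T S H hH A ξ hξ b hb
      exact detects A hH (n T S H hH A ξ hξ b hb) w hc h3 hw
    have key' : j = 0 ∨ j = 2 ∨ j = 3 → Survives A b ∧
        ∃ θ : sph T (stem j) ⟶ T.one, addOrderOf θ = 3 ∧ Detects A b θ := by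
      rintro (rfl | rfl | rfl)
      · exact key n0 kerv0
      · exact key n2 k2
      · exact key n3 k3
    have key'' : Survives A b → j = 0 ∨ j = 2 ∨ j = 3 := fun hs => by
      by_contra hj
      rcases (by omega : j = 1 ∨ 4 ≤ j) with rfl | hj4
      · have := locallySmall_self.{0} T.C
        obtain ⟨y, hy⟩ := Cv.exists_of_perm A S Cv.sahn (Cv.exp T.C) (Cv.divi T.C) he
          (by norm_num [stem]) 2 b hs.1
        exact hs.2 (hy ▸ Cv.boundary_of A (fun θ => Top.filtGe_three A (h1 T S H _ hH θ)) le_rfl y)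
      · exact hs.2 ((((Top.fin2.2 T S).2 H _ he).2 A j hj4).2 2 le_rfl b hs.1)
    exact ⟨⟨key'', fun h => (key' h).1⟩, fun h => (key' (key'' h)).2⟩

theorem st_of (h4 : PI4) (h0 : TAU0) (n0 : NB 0) (n2 : NB 2) (n3 : NB 3) : ST :=
  fun k2 k3 h1 => final_of h4 h0 n0 n2 n3 (kerv_of_hopfM k2) (kerv_of_hopfM k3) h1

end Vale.Agent.P236K.St5
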