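import Vale.Agent.P257.H80.Idem
import Vale.Agent.P257.H80.HazVV
import Vale.Agent.P257.H762.MCell
import Vale.Agent.P251.X.PDSucc
import Vale.Agent.P251.M.CobIso
import Vale.Agent.P236Z.Tr.Defs

/-!
# P236, block St5: the Eilenberg-Mac Lane ring in a range

`B` is the typical retract of `MU / I_n` (`p = 3`); its homotopy is the one of `H` below the degree
of `v_n`.  Monoid maps out of `B` are given by orientations; every class in `π_{2w} (B ⊗ B)` has a
universal polynomial which gives its value on a pair of monoid maps with additive law.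
-/

open CategoryTheory MonoidalCategory MonObj Limits Pretriangulated

set_option linter.unusedSectionVars false

universe u

namespace Vale.Agent.P236K.St5

open Vale.Agent.P251 Vale.Agent.P251.S Vale.Agent.P251.T Vale.Agent.P251.M Vale.Agent.P251.F
  Vale.Agent.P251.I Vale.Agent.P251.H EvenSpheres Vale.Agent.P257.H80

instance fact3 : Fact (Nat.Prime 3) := ⟨Nat.prime_three⟩

variable {T : Type u} [Category.{0} T] [Preadditive T] [HasZeroObject T]
    [HasShift T ℤ] [∀ n : ℤ, (shiftFunctor T n).Additive] [Pretriangulated T] [IsTriangulated T]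
    [MonoidalCategory T] [SymmetricCategory T] [TensorTriangulated T] [MonoidalClosed T]
    [HasCoproducts.{0} T] [HasProducts.{0} T] [StableCat T]

section basic

variable {K : T} [MonObj K]

theorem of_zsmul {X : T} (n m : ℤ) (a : (stdEven T).S n ⟶ X) :
    HRing.of (stdEven T) X n (m • a) = m • HRing.of (stdEven T) X n a :=
  (DirectSum.of ((stdEven T).Gr X) n).map_zsmul _ _

theorem of_add {X : T} (n : ℤ) (a b : (stdEven T).S n ⟶ X) :
    HRing.of (stdEven T) X n (a + b) = HRing.of (stdEven T) X n a + HRing.of (stdEven T) X n b :=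
  (DirectSum.of ((stdEven T).Gr X) n).map_add _ _

theorem of_sub {X : T} (n : ℤ) (a b : (stdEven T).S n ⟶ X) :
    HRing.of (stdEven T) X n (a - b) = HRing.of (stdEven T) X n a - HRing.of (stdEven T) X n b :=
  (DirectSum.of ((stdEven T).Gr X) n).map_sub _ _

theorem of_zero {X : T} (n : ℤ) : HRing.of (stdEven T) X n (0 : (stdEven T).S n ⟶ X) = 0 :=
  (DirectSum.of ((stdEven T).Gr X) n).map_zero

theorem intCast_eq (m : ℤ) : (m : HRing (stdEven T) K) =
    HRing.of (stdEven T) K 0 ((stdEven T).zero.inv ≫ (m • η[K])) := by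
  rw [Preadditive.comp_zsmul, of_zsmul, of_one, zsmul_one]

theorem three_ring (h : (3 : ℤ) • η[K] = 0) : (3 : HRing (stdEven T) K) = 0 := by
  have h1 := intCast_eq (K := K) 3
  rw [h, comp_zero, of_zero] at h1
  exact_mod_cast h1

theorem three_of_ring (h : (3 : HRing (stdEven T) K) = 0) : (3 : ℤ) • η[K] = 0 := by
  have h1 := intCast_eq (K := K) 3
  rw [Int.cast_ofNat, h, ← of_zero 0] at h1
  exact (cancel_epi (stdEven T).zero.inv).1 ((of_injective h1).symm.trans comp_zero.symm)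

theorem three_id (h : (3 : ℤ) • η[K] = 0) : (3 : ℤ) • 𝟙 K = 0 := by
  have h1 : ((3 : ℤ) • η[K]) ▷ K = (3 : ℤ) • (η[K] ▷ K) := (tensorRight _).map_zsmul ..
  rw [← (λ_ K).inv_hom_id, ← MonObj.one_mul, ← Preadditive.comp_zsmul, ← Preadditive.zsmul_comp,
    ← h1, h, MonoidalPreadditive.zero_whiskerRight, zero_comp, comp_zero]

theorem three_hom {K' : T} [MonObj K'] (f : K ⟶ K') [IsMonHom f] (h : (3 : ℤ) • η[K] = 0) :
    (3 : ℤ) • η[K'] = 0 := by
  rw [← IsMonHom.one_hom f, ← Preadditive.zsmul_comp, h, zero_comp]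

theorem locO_three (h : (3 : ℤ) • η[K] = 0) : LocO 3 K := by
  intro m hm
  obtain ⟨x, y, hxy⟩ := (Int.prime_three.irreducible.coprime_iff_not_dvd.2 hm : IsCoprime 3 m)
  have h1 : (y * m) • 𝟙 K = 𝟙 K := by
    rw [← sub_eq_iff_eq_add'.2 hxy.symm, sub_smul, one_smul, mul_smul, three_id h, smul_zero,
      sub_zero]
  refine ⟨y • 𝟙 K, ?_, ?_⟩
  · rw [Preadditive.zsmul_comp, Category.id_comp, smul_smul, mul_comm, h1]
  · rw [Preadditive.zsmul_comp, Category.id_comp, smul_smul, h1]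

theorem vv_add {A : Type} [CommRing A] (h : (3 : A) = 0) (i : ℕ) : vv 3 i (P251.F.addLaw A) = 0 := by
  rcases i with _ | i
  · rw [vv_zero]
    exact_mod_cast h
  · rw [← haz_spZ 3, vv_haz_of_zero 3 (by exact_mod_cast h) fun j _ => by simp [spZ]]
    simp [spZ]

/-- the component of a product with a homogeneous element -/
theorem mul_of_apply (y : HRing (stdEven T) K) {v w : ℤ} (a : (stdEven T).S v ⟶ K)
    (h : y (w - v) = 0) : (y * HRing.of (stdEven T) K v a : HRing (stdEven T) K) w = 0 := by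
  classical
  rw [← DirectSum.sum_support_of y, Finset.sum_mul, DFinsupp.finsetSum_apply]
  refine Finset.sum_eq_zero fun i hi => ?_
  have h1 : i ≠ w - v := fun e => DFinsupp.mem_support_iff.1 hi (e ▸ h)
  rw [of_mul_of (p := i + v) rfl]
  exact DirectSum.of_eq_of_ne _ _ _ (by omega)

end basic

variable {F : SpaceFunctor T} {e : F.S.obj CCF ≅ (stdEven T).L} {D : MUData T}

section ser

variable {K : T} [MonObj K] [IsCommMonObj K]

theorem ser_trans (a b c : D.R ⟶ K) [IsMonHom a] [IsMonHom b] [IsMonHom c] :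
    ser a c = ser b c * ser a b := by
  have inst : ∀ i : Fin 3, IsMonHom (![a, b, c] i) := fun i => by fin_cases i <;> assumption
  let Φ : Cob Laz 2 →+* HRing (stdEven T) K := (HRing.map (Am.lift ![a, b, c])).comp (D.ev 2)
  have key : ∀ (i j : Fin 3), ser (![a, b, c] i) (![a, b, c] j) =
      InvSeries.map Φ ((Cob.univ Laz 2).g j) * (InvSeries.map Φ ((Cob.univ Laz 2).g i))⁻¹ := by
    intro i j
    have h1 : Am.map D.R ![i, j] ≫ Am.lift ![a, b, c] = pairM (![a, b, c] i) (![a, b, c] j) :=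
      eq_pairM (by rw [Am.v_map_assoc, Am.v_lift]; rfl) (by rw [Am.v_map_assoc, Am.v_lift]; rfl)
    rw [← map_inv, ← map_mul]
    refine InvSeries.ext_c fun n => ?_
    rcases n with _ | n
    · rw [mem_strict.1 (ser_strict _ _), mem_strict.1 (map_mem_strict _
        (mul_mem ((Cob.univ Laz 2).strict _) (inv_mem ((Cob.univ Laz 2).strict _))))]
    · rw [ser_c, ← HRing_map_congr' h1, HRing.map_comp, RingHom.comp_apply, D.ev_map, Cob.map,
        Cob.ev_X, InvSeries.c_map]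
      rfl
  have h1 := key 0 2
  have h2 := key 1 2
  have h3 := key 0 1
  change ser a c = _ at h1
  change ser b c = _ at h2
  change ser a b = _ at h3
  rw [h1, h2, h3, _root_.mul_assoc, inv_mul_cancel_left]

/-- An orientation of a ring concentrated in degree zero has the additive law. -/
theorem lawOf_conc (hU : MUUniv e D) (h3 : (3 : ℤ) • η[K] = 0)
    (h0 : ∀ k : ℤ, k ≠ 0 → ∀ g : (𝟙_ T)⟦k⟧ ⟶ K, g = 0) (u : D.R ⟶ K) [IsMonHom u] :
    lawOf u = P251.F.addLaw _ := by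
  have hK := locO_three h3
  have h1 : typ 3 (pLoc_of_locO hK) (lawOf u) = fun _ => 0 := by
    funext m
    obtain ⟨a, ha⟩ := isHomog_typ (pLoc_of_locO hK) u m
    have h2 : a = 0 := by
      rw [← cancel_epi ((stdEven T).sphIso (Iso.refl _) _).inv, h0 _ (by omega) (_ ≫ _), comp_zero]
    rw [ha, h2, of_zero]
  have h2 : typM hU hK u = u := by
    apply eq_of_ser hU (u := u)
    rw [ser_typM, ser_self, h1, ← strictMk_zero]
    congr 1
    funext m
    simp [bS]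
  rw [← lawOf_congr h2, lawOf_typM, h1, ← haz_spZ 3]
  rfl

theorem typM_add (hU : MUUniv e D) (hK : LocO 3 K) (u : D.R ⟶ K) [IsMonHom u]
    (h : lawOf u = P251.F.addLaw _) : typM hU hK u = u :=
  typM_eq hU hK u (h.trans (haz_spZ 3 _).symm)

theorem odd_R (hU : MUUniv e D) (k : D.R ⟶ K) [IsMonHom k] (hA : X.Odd0 K) :
    X.Odd0 (K ⊗ D.R) := fun l f => by
  obtain ⟨b, -, -⟩ := D.exists_basis_of k hU
  rw [← cancel_mono (ρ_ _).inv, zero_comp]
  refine b.odd (Iso.refl _) (𝟙_ T) (fun l g => ?_) l _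
  rw [← cancel_mono (ρ_ _).hom, zero_comp]
  exact hA l _

/-- The expansion of a class of `K ⊗ MU`. -/
theorem exists_exp (hU : MUUniv e D) (k : D.R ⟶ K) [IsMonHom k] (w : ℤ)
    (f : (stdEven T).S w ⟶ K ⊗ D.R) :
    ∃ (t : Finset (ℕ →₀ ℕ)) (x : ∀ a : ℕ →₀ ℕ, (stdEven T).S (w - Cob.degU a) ⟶ K),
      HRing.of (stdEven T) _ w f = ∑ a ∈ t,
        (a.prod fun i m => (ser (k ≫ inlM K D.R) (inrM K D.R)).c (i + 1) ^ m) *
          HRing.map (inlM K D.R) (HRing.of (stdEven T) K _ (x a)) := by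
  obtain ⟨b, hk, hw⟩ := D.exists_basis_of k hU
  obtain ⟨t, x, hx⟩ := b.exists_expansion (𝟙_ T) w ⟨_, ⟨(stdEven T).sphIso (Iso.refl _) w⟩⟩
    (f ≫ (ρ_ _).inv)
  refine ⟨t, fun a => ((stdEven T).castIso _ _ (by rw [hk])).hom ≫ x a ≫ (ρ_ _).hom, ?_⟩
  have key : ∀ {m l : ℤ} (h : l + m = w) (z : (stdEven T).S l ⟶ K ⊗ D.R)
      (y : (stdEven T).S m ⟶ K ⊗ 𝟙_ T), gact (𝟙_ T) h z (y ≫ (inlM K D.R ▷ 𝟙_ T)) =
        gmul h z ((y ≫ (ρ_ _).hom) ≫ inlM K D.R) ≫ (ρ_ _).inv := by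
    intro m l h z y
    have h1 : y ≫ (inlM K D.R ▷ 𝟙_ T) =
        ((y ≫ (ρ_ _).hom) ≫ inlM K D.R) ≫ rmap (K ⊗ D.R) (𝟙 (𝟙_ T)) := by
      rw [rmap, MonoidalCategory.whiskerLeft_id, Category.comp_id, Category.assoc,
        Category.assoc]
      have h2 := rightUnitor_naturality (inlM K D.R)
      rw [← reassoc_of% h2, Iso.hom_inv_id, Category.comp_id]
    rw [h1, gact_rmap, rmap, MonoidalCategory.whiskerLeft_id, Category.comp_id]
  have h1 : f = ∑ a ∈ t, gmul (add_sub_cancel (b.k a) w) (b.w a)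
      ((x a ≫ (ρ_ _).hom) ≫ inlM K D.R) := by
    rw [← cancel_mono (ρ_ _).inv, hx, Preadditive.sum_comp]
    exact Finset.sum_congr rfl fun d _ => key _ _ _
  have h2 : D.toKR k = pairM (k ≫ inlM K D.R) (inrM K D.R) :=
    eq_pairM (D.v_zero_toKR k) (D.v_one_toKR k)
  rw [h1]
  refine (map_sum (DirectSum.of ((stdEven T).Gr (K ⊗ D.R)) w) _ _).trans
    (Finset.sum_congr rfl fun a _ => ?_)
  refine (of_mul_of _ _ _).symm.trans ?_
  rw [of_cast, HRing.map_of, hw, HRing_map_congr' h2, MvPolynomial.monomial_eq, MvPolynomial.C_1,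
    _root_.one_mul, Cob.last, Finsupp.prod_mapDomain_index (fun _ => pow_zero _)
      (fun _ _ _ => pow_add _ _ _), map_finsuppProd, map_finsuppProd]
  congr 1
  refine Finsupp.prod_congr fun i _ => ?_
  rw [map_pow, map_pow, ser_c]
  rfl

end ser

variable (D) in
/-- The typical retract of `MU / I_n`. -/
structure BD (hU : MUUniv e D) (n : ℕ) where
  /-- the spectrum -/
  B : T
  [mon : MonObj B]
  [comm : IsCommMonObj B]
  /-- the orientation -/
  b : D.R ⟶ B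
  [hom : IsMonHom b]
  three : (3 : ℤ) • η[B] = 0
  odd : X.Odd0 B
  vv_lt (i : ℕ) (hi : i < n) : vv 3 i (lawOf b) = 0
  van (w : ℤ) (h0 : w ≠ 0) (hw : w < 3 ^ n - 1) (x : (stdEven T).S w ⟶ B) : x = 0
  gen (x : 𝟙_ T ⟶ B) : ∃ m : ℤ, x = m • η[B]
  desc (N : T) [MonObj N] [IsCommMonObj N] (hN : LocO 3 N) (g : D.R ⟶ N) [IsMonHom g]
    (ho : X.Odd0 N) (hg : ∀ i < n, vv 3 i (lawOf g) = 0) :
    ∃ (f : B ⟶ N) (_ : IsMonHom f), b ≫ f = typM hU hN g
  uniq (N : T) [MonObj N] (f f' : B ⟶ N) [IsMonHom f] [IsMonHom f'] (ho : X.Odd0 N)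
    (h : b ≫ f = b ≫ f') : f = f'

attribute [instance] BD.mon BD.comm BD.hom

theorem nonempty_BD (hU : MUUniv e D) {n : ℕ} (hn : n ≠ 0) : Nonempty (BD D hU n) := by
  obtain ⟨P⟩ := X.exists_PD hU (p := 3) (by norm_num) hn
  have hv : ∀ i < n, vv 3 i (lawOf P.u) = 0 := fun i hi => by
    have h := (P.ker (Laz.v 3 i)).2 (vv_mem_Ih hi _)
    rwa [Laz.map_v, Laz.univ_map_lift] at h
  have hvt : ∀ {N : T} [MonObj N] [IsCommMonObj N] (a b : D.R ⟶ N) [IsMonHom a] [IsMonHom b],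
      (∀ i < n, vv 3 i (lawOf a) = 0) → ∀ i < n, vv 3 i (lawOf b) = 0 := by
    intro N _ _ a b _ _ h i hi
    have h1 := vv_mem_Ih (p := 3) hi (lawOf b)
    rw [← ser_smul a b, Ih_smul] at h1
    have h2 : Ih 3 n (lawOf a) = ⊥ := by
      rw [Ih, Ideal.span_eq_bot]
      rintro _ ⟨j, hj, rfl⟩
      exact h j hj
    rwa [h2, Ideal.mem_bot, ser_smul] at h1
  have h3 : (3 : ℤ) • η[P.P] = 0 := three_of_ring (by
    have h := hv 0 (by omega)
    rw [vv_zero] at h
    exact_mod_cast h)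
  have hP := locO_three h3
  obtain ⟨ε, hε, hl⟩ := P.desc P.P (typM hU hP P.u) P.odd (hvt P.u _ hv)
  have hidem : ε ≫ ε = ε := by
    refine P.uniq _ _ _ inferInstance hε P.odd ?_
    rw [← Category.assoc, hl, ← typM_comp hU hP P.u hP ε]
    exact (typM_congr hU hP hl).trans (typM_eq hU hP _ (lawOf_typM hU hP P.u))
  obtain ⟨B, s, r, hsr, hrs⟩ := X.exists_split ε hidem
  have hret : X.IsRetMon s r := ⟨hsr, by rw [hrs]; exact hε⟩
  let i1 : MonObj B := hret.monObj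
  have i2 : IsCommMonObj B := hret.isCommMonObj
  have i3 : IsMonHom s := hret.isMonHom_s
  have i4 : IsMonHom r := hret.isMonHom_r
  have hB3 : (3 : ℤ) • η[B] = 0 := three_hom r h3
  have hB := locO_three hB3
  have h1 : typM hU hP P.u ≫ r = P.u ≫ r := by
    rw [← hl, Category.assoc, ← hrs, Category.assoc, hsr, Category.comp_id]
  have h2 : typM hU hB (P.u ≫ r) = P.u ≫ r := by rw [typM_comp hU hP P.u hB r, h1]
  have hvB : ∀ i < n, vv 3 i (lawOf (P.u ≫ r)) = 0 := fun i hi => by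
    rw [lawOf_comp, vv_map, hv i hi, map_zero]
  obtain ⟨ψ, hψ, hh⟩ : ∃ ψ : MvPolynomial ℕ ℤ →+* HRing (stdEven T) B,
      lawOf (P.u ≫ r) = (haz 3).map ψ ∧
        ∀ k, IsHomog B ((3 : ℤ) ^ (k + 1) - 1) (ψ (MvPolynomial.X k)) := by
    refine ⟨_, (lawOf_congr h2).symm.trans (lawOf_typM hU hB (P.u ≫ r)), fun k => ?_⟩
    have h := isHomog_typ (pLoc_of_locO hB) (P.u ≫ r) (3 ^ (k + 1) - 2)
    have h4 : 3 ≤ 3 ^ (k + 1) := Nat.le_self_pow (by omega) 3
    have h5 : ((3 ^ (k + 1) - 2 + 1 : ℕ) : ℤ) = (3 : ℤ) ^ (k + 1) - 1 := by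
      rw [show 3 ^ (k + 1) - 2 + 1 = 3 ^ (k + 1) - 1 by omega, Nat.cast_sub (by omega)]
      push_cast
      rfl
    rwa [vS_X, ← h5]
  have hz : ∀ k, k + 1 < n → ψ (MvPolynomial.X k) = 0 := by
    intro k
    induction k using Nat.strong_induction_on with
    | _ k ih =>
      intro hk
      rw [← vv_haz_of_zero 3 (by exact_mod_cast three_ring hB3) fun j hj => ih j hj (by omega),
        ← hψ, hvB _ hk]
  have key : ∀ q : MvPolynomial ℕ ℤ, (∀ w : ℤ, w ≠ 0 → w < 3 ^ n - 1 → ψ q w = 0) ∧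
      ∃ m : ℤ, ψ q 0 = (stdEven T).zero.inv ≫ (m • η[B]) := by
    have h4 : (3 : ℤ) ≤ 3 ^ n := by exact_mod_cast Nat.le_self_pow hn 3
    intro q
    induction q using MvPolynomial.induction_on with
    | C m =>
      have h5 : ψ (MvPolynomial.C m) = (m : HRing (stdEven T) B) := by simp
      rw [h5, intCast_eq]
      exact ⟨fun w hw _ => DirectSum.of_eq_of_ne _ _ _ hw, m, DirectSum.of_eq_same _ _⟩
    | add p q hp hq =>
      obtain ⟨m, hm⟩ := hp.2
      obtain ⟨m', hm'⟩ := hq.2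
      refine ⟨fun w h h' => ?_, m + m', ?_⟩
      · rw [map_add, DirectSum.add_apply, hp.1 w h h', hq.1 w h h', add_zero]
      · rw [map_add, DirectSum.add_apply, hm, hm', add_smul, Preadditive.comp_add]
    | mul_X p k hp =>
      have h5 : ∀ w : ℤ, w < 3 ^ n - 1 → ψ (p * MvPolynomial.X k) w = 0 := by
        intro w hw
        rw [map_mul]
        by_cases hk : k + 1 < n
        · rw [hz k hk, mul_zero, DirectSum.zero_apply]
        · obtain ⟨a, ha⟩ := hh k
          have h6 : (3 : ℤ) ^ n ≤ 3 ^ (k + 1) := pow_le_pow_right₀ (by norm_num) (by omega)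
          rw [ha]
          exact mul_of_apply _ a (hp.1 _ (by omega) (by omega))
      exact ⟨fun w _ hw => h5 w hw, 0, by rw [h5 0 (by omega), zero_smul, comp_zero]⟩
  have hsur : ∀ (w : ℤ) (x : (stdEven T).S w ⟶ B), ∃ q, ψ q w = x := by
    intro w x
    obtain ⟨z, hz⟩ := P.surj (HRing.of (stdEven T) P.P w (x ≫ s))
    refine ⟨Laz.lift (haz 3) z, ?_⟩
    have h4 := X.lift_lawOf_comp P.u r z
    rw [hz, HRing.map_of, Category.assoc, hsr, Category.comp_id] at h4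
    have h5 : Laz.lift (lawOf (P.u ≫ r)) z = ψ (Laz.lift (haz 3) z) := by
      rw [hψ, ← Laz.comp_lift]
      rfl
    rw [← h5]
    exact (congrArg (fun y : HRing (stdEven T) B => y w) h4).trans (DirectSum.of_eq_same _ _)
  refine ⟨{ B := B
            b := P.u ≫ r
            three := hB3
            odd := fun l f => ?_
            vv_lt := hvB
            van := fun w h0 hw x => ?_
            gen := fun x => ?_
            desc := fun N _ _ hN g _ ho hg => ?_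
            uniq := fun N _ f f' _ _ ho h => ?_ }⟩
  · rw [← Category.comp_id f, ← hsr, ← Category.assoc, P.odd l (f ≫ s), zero_comp]
  · obtain ⟨q, rfl⟩ := hsur w x
    exact (key q).1 w h0 hw
  · obtain ⟨q, hq⟩ := hsur 0 ((stdEven T).zero.inv ≫ x)
    obtain ⟨m, hm⟩ := (key q).2
    exact ⟨m, (cancel_epi (stdEven T).zero.inv).1 (hq.symm.trans hm)⟩
  · obtain ⟨f, hf, hfg⟩ := P.desc N g ho hg
    refine ⟨s ≫ f, inferInstance, ?_⟩
    rw [Category.assoc, ← Category.assoc r, hrs, ← Category.assoc, hl,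
      ← typM_comp hU hP P.u hN f]
    exact typM_congr hU hN hfg
  · have h4 : r ≫ f = r ≫ f' := P.uniq N _ _ inferInstance inferInstance ho (by
      rw [← Category.assoc, ← Category.assoc, h])
    rw [← Category.id_comp f, ← Category.id_comp f', ← hsr, Category.assoc, Category.assoc, h4]

namespace BD

variable {hU : MUUniv e D} {n : ℕ} (Q : BD D hU n)

theorem desc_add {N : T} [MonObj N] [IsCommMonObj N] (h3 : (3 : ℤ) • η[N] = 0) (ho : X.Odd0 N)
    (g : D.R ⟶ N) [IsMonHom g] (hg : lawOf g = P251.F.addLaw _) :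
    ∃ (f : Q.B ⟶ N) (_ : IsMonHom f), Q.b ≫ f = g := by
  obtain ⟨f, hf, h⟩ := Q.desc N (locO_three h3) g ho fun i _ => by
    rw [hg]
    exact vv_add (three_ring h3) i
  exact ⟨f, hf, h.trans (typM_add hU _ g hg)⟩

/-- **The universal polynomial of a class of `B ⊗ B`.** -/
theorem exists_poly {w : ℤ} (hw : w < 3 ^ n - 1) (y : (stdEven T).S w ⟶ Q.B ⊗ Q.B) :
    ∃ (t : Finset (ℕ →₀ ℕ)) (c : (ℕ →₀ ℕ) → ℤ), (∀ a ∈ t, Cob.degU a = w) ∧
      ∀ (N : T) [MonObj N] [IsCommMonObj N] (f f' : Q.B ⟶ N) [IsMonHom f] [IsMonHom f'],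
        X.Odd0 N → lawOf (Q.b ≫ f') = P251.F.addLaw _ → HRing.of (stdEven T) N w (y ≫ descM f f') =
          ∑ a ∈ t, (c a : HRing (stdEven T) N) *
            a.prod fun i m => (ser (Q.b ≫ f) (Q.b ≫ f')).c (i + 1) ^ m := by
  classical
  have h3 : (3 : ℤ) • η[Q.B ⊗ D.R] = 0 := three_hom (inlM Q.B D.R) Q.three
  obtain ⟨f₁, hf₁, h₁⟩ := Q.desc (Q.B ⊗ D.R) (locO_three h3) (inrM Q.B D.R)
    (odd_R hU Q.b Q.odd) (fun i hi => by
      have h1 := vv_mem_Ih (p := 3) hi (lawOf (inrM Q.B D.R))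
      rw [← ser_smul (Q.b ≫ inlM Q.B D.R), Ih_smul] at h1
      have h2 : Ih 3 n (lawOf (Q.b ≫ inlM Q.B D.R)) = ⊥ := by
        rw [Ih, Ideal.span_eq_bot]
        rintro _ ⟨j, hj, rfl⟩
        rw [lawOf_comp, vv_map, Q.vv_lt j hj, map_zero]
      rwa [h2, Ideal.mem_bot, ser_smul] at h1)
  obtain ⟨t, x, hx⟩ := exists_exp hU Q.b w (y ≫ descM (inlM Q.B D.R) f₁)
  have hc : ∀ a : ℕ →₀ ℕ, ∃ c : ℤ, HRing.of (stdEven T) Q.B _ (x a) = c ∧
      (Cob.degU a ≠ w → c = 0) := by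
    intro a
    by_cases ha : Cob.degU a = w
    · obtain ⟨m, hm⟩ := Q.gen ((stdEven T).zero.hom ≫
        ((stdEven T).castIso 0 (w - Cob.degU a) (by omega)).hom ≫ x a)
      refine ⟨m, ?_, fun h => absurd ha h⟩
      rw [intCast_eq, ← hm, Iso.inv_hom_id_assoc, of_cast]
    · have h0 : 0 ≤ Cob.degU a := Finset.sum_nonneg fun i _ => by positivity
      rw [Q.van _ (by omega) (by omega) (x a), of_zero]
      exact ⟨0, Int.cast_zero.symm, fun _ => rfl⟩
  choose c hc hc' using hc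
  refine ⟨t.filter fun a => Cob.degU a = w, c, fun a ha => (Finset.mem_filter.1 ha).2, ?_⟩
  intro N _ _ f f' _ _ ho hl
  have hN := locO_three (three_hom f Q.three)
  have h1 : f₁ ≫ descM f (Q.b ≫ f') = f' := Q.uniq N _ _ ho (by
    rw [reassoc_of% h₁, ← typM_comp hU _ _ hN]
    exact (typM_congr hU hN (inrM_descM _ _)).trans (typM_add hU hN _ hl))
  have h2 : descM (inlM Q.B D.R) f₁ ≫ descM f (Q.b ≫ f') = descM f f' :=
    hom_ext_tensor (by rw [inlM_descM_assoc, inlM_descM, inlM_descM])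
      (by rw [inrM_descM_assoc, inrM_descM, h1])
  have h4 : InvSeries.map (HRing.map (descM f (Q.b ≫ f')))
      (ser (Q.b ≫ inlM Q.B D.R) (inrM Q.B D.R)) = ser (Q.b ≫ f) (Q.b ≫ f') := by
    rw [← ser_comp]
    congr 1
    · rw [Category.assoc, inlM_descM]
    · rw [inrM_descM]
  rw [← h2, ← Category.assoc, ← HRing.map_of, hx, map_sum, Finset.sum_filter]
  refine Finset.sum_congr rfl fun a _ => ?_
  rw [hc, map_intCast, map_mul, map_intCast, map_finsuppProd, mul_comm]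
  split_ifs with ha
  · congr 1
    refine Finsupp.prod_congr fun i _ => ?_
    rw [map_pow, ← h4, InvSeries.c_map]
  · rw [hc' a ha, Int.cast_zero, zero_mul]

variable {H : T} [MonObj H] [IsCommMonObj H] (hH : P236Z.Tr.IsHF 3 η[H])

include hH

omit [IsCommMonObj H] in
theorem three_H : (3 : ℤ) • η[H] = 0 := (hH.ord 3).2 dvd_rfl

omit [IsCommMonObj H] in
theorem odd_H : X.Odd0 H := fun l f => hH.conc _ (by omega) f

theorem exists_kappa (u : D.R ⟶ H) [IsMonHom u] :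
    ∃ (κ : Q.B ⟶ H) (_ : IsMonHom κ), Q.b ≫ κ = u :=
  Q.desc_add (three_H hH) (odd_H hH) u (lawOf_conc hU (three_H hH) hH.conc u)

omit hH in
theorem van' {k : ℤ} (h0 : k ≠ 0) (hk : k < 2 * (3 ^ n - 1)) (x : (𝟙_ T)⟦k⟧ ⟶ Q.B) : x = 0 := by
  rcases Int.even_or_odd' k with ⟨m, rfl | rfl⟩
  · rw [← cancel_epi ((stdEven T).sphIso (Iso.refl _) m).hom, comp_zero]
    exact Q.van m (by omega) (by omega) _
  · exact Q.odd m x

omit [IsCommMonObj H] in
theorem cofIn_kappa [LocallySmall.{0} T] (κ : Q.B ⟶ H) [IsMonHom κ] :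
    CofIn (BigCell T (2 * (3 ^ n - 1) + 1)) κ := by
  obtain ⟨C, g, d, hC⟩ := exists_cone κ
  refine ⟨C, g, d, hC, P257.H762.bigCell_of_conn D.conn_unit fun k hk x => ?_⟩
  let z : (𝟙_ T)⟦(0 : ℤ)⟧ ≅ 𝟙_ T := (shiftFunctorZero T ℤ).app (𝟙_ T)
  let c : (𝟙_ T)⟦k⟧ ≅ ((𝟙_ T)⟦k - 1⟧)⟦(1 : ℤ)⟧ :=
    (shiftFunctorAdd' T (k - 1) 1 k (by omega)).app (𝟙_ T)
  obtain ⟨y, hy⟩ := (shiftFunctor T (1 : ℤ)).map_surjective (c.inv ≫ x ≫ d)
  have h1 : y ≫ κ = 0 := by
    apply (shiftFunctor T (1 : ℤ)).map_injective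
    rw [Functor.map_comp, hy, Category.assoc, Category.assoc, hC.zero₃₁, comp_zero, comp_zero,
      Functor.map_zero]
  have h2 : y = 0 := by
    by_cases h : k - 1 = 0
    · obtain rfl : k = 1 := by omega
      obtain ⟨m, hm⟩ := Q.gen (z.inv ≫ y)
      have h3 : m • η[H] = 0 := by
        rw [← IsMonHom.one_hom κ, ← Preadditive.zsmul_comp, ← hm]
        exact (Category.assoc _ _ _).trans ((congrArg (z.inv ≫ ·) h1).trans comp_zero)
      obtain ⟨m', rfl⟩ := (hH.ord m).1 h3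
      rw [mul_comm, mul_smul, Nat.cast_ofNat, Q.three, smul_zero] at hm
      exact (cancel_epi z.inv).1 (hm.trans comp_zero.symm)
    · exact Q.van' h (by omega) y
  obtain ⟨x', rfl⟩ := hC.lift₃ x (by
    rw [← cancel_epi c.inv, ← hy, h2, Functor.map_zero, comp_zero])
  by_cases h : k = 0
  · subst h
    obtain ⟨m, hm⟩ := hH.gen (z.inv ≫ x')
    rw [← cancel_epi z.inv, ← Category.assoc, hm, ← IsMonHom.one_hom κ, Preadditive.zsmul_comp,
      Category.assoc, hC.zero₁₂, comp_zero, smul_zero, comp_zero]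
  · rw [hH.conc k h x', zero_comp]

end BD

section range

theorem surj_of_cofIn (h0 : Conn 0 (𝟙_ T)) {a w : ℤ} {X Y : T} {f : X ⟶ Y}
    (hf : CofIn (BigCell T a) f) (hw : 2 * w < a) (y : (stdEven T).S w ⟶ Y) :
    ∃ x, x ≫ f = y := by
  obtain ⟨C, g, d, hC, hc⟩ := hf
  refine hC.lift₂ y ?_
  rw [← cancel_epi ((stdEven T).sphIso (Iso.refl _) w).inv, comp_zero]
  exact P257.H762.BigCell.conn' h0 hc _ hw _

theorem inj_of_cofIn (h0 : Conn 0 (𝟙_ T)) {a w : ℤ} {X Y : T} {f : X ⟶ Y}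
    (hf : CofIn (BigCell T a) f) (hw : 2 * w + 1 < a) {x x' : (stdEven T).S w ⟶ X}
    (h : x ≫ f = x' ≫ f) : x = x' := by
  obtain ⟨C, g, d, hC, hc⟩ := hf
  obtain ⟨z, hz⟩ := hC.lift₁ ((x - x')⟦(1 : ℤ)⟧') (by
    rw [← Functor.map_comp, Preadditive.sub_comp, h, sub_self, Functor.map_zero])
  let c : ((stdEven T).S w)⟦(1 : ℤ)⟧ ≅ (𝟙_ T)⟦2 * w + 1⟧ :=
    (shiftFunctor T (1 : ℤ)).mapIso ((stdEven T).sphIso (Iso.refl _) w) ≪≫
      ((shiftFunctorAdd' T (2 * w) 1 (2 * w + 1) rfl).app (𝟙_ T)).symm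
  have h1 : z = 0 := by
    rw [← cancel_epi c.inv, comp_zero]
    exact P257.H762.BigCell.conn' h0 hc _ hw _
  rw [← sub_eq_zero]
  apply (shiftFunctor T (1 : ℤ)).map_injective
  rw [← hz, h1, zero_comp, Functor.map_zero]

theorem cofIn_tensor {a : ℤ} {X Y X' Y' : T} {f : X ⟶ Y} {g : X' ⟶ Y'}
    (hf : CofIn (BigCell T a) f) (hg : CofIn (BigCell T a) g) (hX : BigCell T 0 X')
    (hY : BigCell T 0 Y) : CofIn (BigCell T a) (f ⊗ₘ g) := by
  rw [MonoidalCategory.tensorHom_def]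
  exact CofIn.comp (bigCell_extClosed a)
    (CofIn.whiskerRight (bigCell_extClosed a) X' (fun Z hZ => hX.tensor hZ a (by omega)) hf)
    (CofIn.whiskerLeft Y (fun Z hZ => hY.tensor hZ a (by omega)) hg)

end range

end Vale.Agent.P236K.St5
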