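import Vale.Agent.P236Z.Dt.HF
import Vale.Agent.P236Z.Det.All

/-!
# P236, block St5: the interface for the Kervaire classes

For `θ : S^n ⟶ 𝟙`, `n = 4 * 3 ^ (j + 1) - 2`: `Ker`, `HopfM` (independent of the model), `HopfW`
(in the tower of `MU`), `HopfT` (a class of the Moore spectrum).  `CT` : two stages of a tower.
-/

open CategoryTheory MonoidalCategory MonObj Limits Pretriangulated

set_option linter.unusedSectionVars false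

universe v u

namespace Vale.Agent.P236K.St5

open Vale.Agent.P251 Vale.Agent.P251.S Vale.Agent.P251.T Vale.Agent.P251.M Vale.Agent.P251.F
  Vale.Agent.P251.I Vale.Agent.P251.H Vale.Agent.P236Z Vale.Agent.P236Z.Dt Vale.Agent.P236Z.Tr

variable {T : Type u} [Category.{v} T] [Preadditive T] [HasZeroObject T]
    [HasShift T ℤ] [∀ n : ℤ, (shiftFunctor T n).Additive] [Pretriangulated T] [IsTriangulated T]
    [MonoidalCategory T] [SymmetricCategory T] [TensorTriangulated T] [MonoidalClosed T]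
    [HasCoproducts.{0} T] [HasProducts.{0} T] [StableCat T]

/-- `θ` is killed by three and has Adams filtration at most two. -/
def Ker {H : T} (e : 𝟙_ T ⟶ H) {P : T} (θ : P ⟶ 𝟙_ T) : Prop :=
  (3 : ℤ) • θ = 0 ∧ ¬ AF e 3 θ

/-- `θ` extends over the Moore spectrum to a map of Adams filtration at most one. -/
def HopfM {H : T} (e : 𝟙_ T ⟶ H) {P : T} (θ : P ⟶ 𝟙_ T) : Prop :=
  ∃ (C : T) (i : P ⟶ C) (δ : C ⟶ P⟦(1 : ℤ)⟧) (f : C ⟶ 𝟙_ T),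
    Dist ((3 : ℤ) • 𝟙 P) i δ ∧ i ≫ f = θ ∧ ¬ AF e 2 f

/-- There is a map from `P` to the Moore spectrum of Adams filtration at most one. -/
def HopfT {H : T} (e : 𝟙_ T ⟶ H) (P : T) : Prop :=
  ∃ (M : T) (i : 𝟙_ T ⟶ M) (δ : M ⟶ (𝟙_ T)⟦(1 : ℤ)⟧) (x : P ⟶ M),
    Dist ((3 : ℤ) • 𝟙 (𝟙_ T)) i δ ∧ ¬ AF e 2 x

/-- A lift `W` of `θ` to the second stage of the tower of `MU` with `3 W = k h`. -/
structure WD (D : MUData T) (U : UnitCof D.R) {w₀ w : ℤ} (hw : w₀ + 1 = w)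
    (θ : (stdEven T).S w₀ ⟶ 𝟙_ T) where
  /-- the lift -/
  W : (stdEven T).S w ⟶ U.cobar.B 2 (𝟙_ T)
  /-- the cochain which bounds three times the cocycle -/
  h : Cob.wt Laz 1 w
  /-- the cocycle of the lift -/
  x : Cob.wt Laz 2 w
  dh : Cob.dwt Laz 1 w h = (3 : ℤ) • x
  three : (3 : ℤ) • W = D.evw 1 w h ≫ qq D U 1 ≫ U.cobar.k 1 (𝟙_ T)
  bd : W ≫ U.bd 1 (𝟙_ T) ≫ (U.bd 0 (𝟙_ T))⟦(1 : ℤ)⟧' = (eS hw).hom ≫ (θ⟦(1 : ℤ)⟧')⟦(1 : ℤ)⟧'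

/-- The bounding cochain is a unit multiple of `t_1 ^ (3 ^ (j + 1))` modulo `(3, v_1, …)`. -/
def HopfW (D : MUData T) (U : UnitCof D.R) (t1 : Cob Laz 1) (j : ℕ) {w₀ : ℤ}
    (hw : w₀ + 1 = Det.w0 j) (θ : (stdEven T).S w₀ ⟶ 𝟙_ T) : Prop :=
  ∃ (d : WD D U hw θ) (c : ℤ) (k : ℕ), ¬ (3 : ℤ) ∣ c ∧
    d.h.1 - c * t1 ^ (3 ^ (j + 1)) ∈ IC 3 k 1

/-- Two stages of the tower of cofibres of the unit of `H`. -/
structure CT (H : T) [MonObj H] where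
  /-- the first stage -/
  Y₁ : T
  /-- the second stage -/
  Y₂ : T
  /-- the projection to the first stage -/
  k₀ : H ⊗ 𝟙_ T ⟶ Y₁
  /-- the first boundary map -/
  b₀ : Y₁ ⟶ (𝟙_ T)⟦(1 : ℤ)⟧
  /-- the projection to the second stage -/
  k₁ : H ⊗ Y₁ ⟶ Y₂
  /-- the second boundary map -/
  b₁ : Y₂ ⟶ Y₁⟦(1 : ℤ)⟧
  d₀ : Dist (unitMap H (𝟙_ T)) k₀ b₀
  d₁ : Dist (unitMap H Y₁) k₁ b₁

namespace CT

variable {H : T} [MonObj H] (A : CT H)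

/-- the projection from the cobar complex in degree one -/
noncomputable def κ₁ : H ⊗ H ⟶ H ⊗ A.Y₁ := H ◁ ((ρ_ H).inv ≫ A.k₀)

/-- the projection from the cobar complex in degree two -/
noncomputable def κ₂ : H ⊗ (H ⊗ H) ⟶ H ⊗ A.Y₂ := H ◁ (A.κ₁ ≫ A.k₁)

end CT

/-- The image of a cochain of degree one in the homotopy of `H ⊗ H`. -/
noncomputable def th1 (D : MUData T) {H : T} [MonObj H] [IsCommMonObj H] (u : D.R ⟶ H)
    [IsMonHom u] : Cob Laz 1 →+* HRing (stdEven T) (H ⊗ H) :=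
  (HRing.map (Am.lift ![u ≫ inlM H H, u ≫ inrM H H])).comp (D.ev 1)

/-- The cobar cocycle `X Y ^ 2 + X ^ 2 Y`, `X = [ξ ^ (3 ^ j) | 1]`, `Y = [1 | ξ ^ (3 ^ j)]`. -/
noncomputable def cobR {H : T} [MonObj H] [IsCommMonObj H] (j : ℕ)
    (ξ : HRing (stdEven T) (H ⊗ H)) : HRing (stdEven T) (H ⊗ (H ⊗ H)) :=
  HRing.map (H ◁ inlM H H) ξ ^ 3 ^ j * (HRing.map (inrM H (H ⊗ H)) ξ ^ 3 ^ j) ^ 2 +
    (HRing.map (H ◁ inlM H H) ξ ^ 3 ^ j) ^ 2 * HRing.map (inrM H (H ⊗ H)) ξ ^ 3 ^ j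

end Vale.Agent.P236K.St5
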