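import Vale.Agent.P236Z.Det.All
import Vale.Agent.P251.F.F3Laz

/-!
# P236, block St5: the algebra of the Kervaire classes

If `d h = 3 x` in weight `2 * 3 ^ (j + 1)` then, up to coboundaries, `h = c t_1 ^ (3 ^ (j + 1))`
and `x = - c b_j` modulo `(3, v_1, v_2)`.
-/

namespace Vale.Agent.P236K.St5

open Vale.Agent.P251.F Vale.Agent.P251.I Vale.Agent.P251.F.Cob Vale.Agent.P236Z
  Vale.Agent.P236Z.Det MvPolynomial

/-- `X Y ^ 2 + X ^ 2 Y` -/
def bq {R : Type*} [CommRing R] (X Y : R) : R := X * Y ^ 2 + X ^ 2 * Y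

theorem map_bq {R S : Type*} [CommRing R] [CommRing S] (φ : R →+* S) (X Y : R) :
    φ (bq X Y) = bq (φ X) (φ Y) := by
  simp only [bq, map_add, map_mul, map_pow]

theorem add_pow_three {R : Type*} [CommRing R] (X Y : R) (j : ℕ) :
    ∃ s, (X + Y) ^ 3 ^ j = X ^ 3 ^ j + Y ^ 3 ^ j + 3 * s := by
  induction j with
  | zero => exact ⟨0, by simp⟩
  | succ j ih =>
    obtain ⟨s, hs⟩ := ih
    rw [pow_succ, pow_mul, pow_mul, pow_mul, hs]
    generalize X ^ 3 ^ j = a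
    generalize Y ^ 3 ^ j = b
    exact ⟨a * b ^ 2 + a ^ 2 * b + 3 * ((a + b) ^ 2 * s + 3 * (a + b) * s ^ 2 + 3 * s ^ 3), by ring⟩

theorem add_pow_nine {R : Type*} [CommRing R] (X Y : R) (j : ℕ) :
    ∃ r, (X + Y) ^ 3 ^ (j + 1) = X ^ 3 ^ (j + 1) + Y ^ 3 ^ (j + 1) +
      3 * bq (X ^ 3 ^ j) (Y ^ 3 ^ j) + 9 * r := by
  obtain ⟨s, hs⟩ := add_pow_three X Y j
  rw [pow_succ, pow_mul, pow_mul, pow_mul, hs, bq]
  generalize X ^ 3 ^ j = a
  generalize Y ^ 3 ^ j = b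
  exact ⟨(a + b) ^ 2 * s + 3 * (a + b) * s ^ 2 + 3 * s ^ 3, by ring⟩

/-- the cochain `b_j` -/
noncomputable def bj (t : Cob Laz 1) (j : ℕ) : Cob Laz 2 :=
  bq (Cob.map (Fin.succAbove (2 : Fin 3)) t ^ 3 ^ j) (Cob.map (Fin.succAbove (0 : Fin 3)) t ^ 3 ^ j)

variable {t : Cob Laz 1} (ht : IsT1 3 t)

include ht

theorem isWt_tpow (j : ℕ) : IsWt (w0 j) (t ^ 3 ^ (j + 1)) :=
  isWt_cast ((isWt_t1 ht).pow _) (by rw [w0_eq]; ring)

theorem isWt_bj (j : ℕ) : IsWt (w0 j) (bj t j) := by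
  have h1 := ((isWt_t1 ht).map (Fin.succAbove (2 : Fin 3))).pow (3 ^ j)
  have h2 := ((isWt_t1 ht).map (Fin.succAbove (0 : Fin 3))).pow (3 ^ j)
  exact (isWt_cast (h1.mul (h2.pow 2)) (by rw [w0]; push_cast; ring)).add
    (isWt_cast ((h1.pow 2).mul h2) (by rw [w0]; push_cast; ring))

theorem d_tpow (n : ℕ) : d 1 (t ^ n) = Cob.map (Fin.succAbove (2 : Fin 3)) t ^ n +
    Cob.map (Fin.succAbove (0 : Fin 3)) t ^ n - (Cob.map (Fin.succAbove (2 : Fin 3)) t +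
      Cob.map (Fin.succAbove (0 : Fin 3)) t) ^ n := by
  obtain ⟨-, h, -⟩ := BCocycle 3 (by norm_num) t ht
  rw [d_apply, Fin.sum_univ_three] at h ⊢
  simp only [Fin.val_zero, pow_zero, one_smul, Fin.val_one, pow_one, neg_smul, Fin.val_two,
    even_two, Even.neg_pow, one_pow, map_pow] at h ⊢
  have h1 : Cob.map (Fin.succAbove (1 : Fin 3)) t = Cob.map (Fin.succAbove (2 : Fin 3)) t +
      Cob.map (Fin.succAbove (0 : Fin 3)) t := by linear_combination (-1 : Cob Laz 2) * h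
  rw [h1]
  ring

theorem d_tpow_bj (j : ℕ) : ∃ r, d 1 (t ^ 3 ^ (j + 1)) = - (3 * bj t j) - 9 * r := by
  obtain ⟨r, hr⟩ := add_pow_nine (Cob.map (Fin.succAbove (2 : Fin 3)) t)
    (Cob.map (Fin.succAbove (0 : Fin 3)) t) j
  exact ⟨r, by rw [d_tpow ht, hr, bj]; ring⟩

theorem d_tcube : d 1 (t ^ 3 ^ (0 + 1)) = 3 * (- bj t 0) := by
  rw [d_tpow ht, bj, bq]
  ring

/-- The normal form of a cochain whose coboundary is divisible by three. -/
theorem normal {j : ℕ} (h : Cob.wt Laz 1 (w0 j)) (x : Cob.wt Laz 2 (w0 j))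
    (hx : Cob.dwt Laz 1 _ h = (3 : ℤ) • x) :
    ∃ (c : ℤ) (z : Cob.wt Laz 0 (w0 j)) (g : Cob.wt Laz 1 (w0 j)),
      (h - Cob.dwt Laz 0 _ z - (3 : ℤ) • g).1 - c * t ^ 3 ^ (j + 1) ∈ II 1 ∧
      (x - Cob.dwt Laz 1 _ g).1 + c * bj t j ∈ II 2 := by
  obtain ⟨dd⟩ := exists_dat norm evp ht
  have hd : d 1 h.1 = 3 * x.1 := by
    have h1 : d 1 h.1 = (3 : ℤ) • x.1 := congrArg Subtype.val hx
    rw [h1, zsmul_eq_mul]
    norm_num
  obtain ⟨c, Z, G, h', hG, e⟩ := listA land hone ht dd (j := j) (h := h.1)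
    (by rw [← w0_eq]; exact h.2) ⟨_, hd⟩
  obtain ⟨r, hr⟩ := d_tpow_bj ht j
  refine ⟨c, ⟨proj _ (C Z), isWt_proj _ _⟩, ⟨proj _ h', isWt_proj _ _⟩, ?_, ?_⟩
  · have h3 : h.1 - D Z - c * t ^ 3 ^ (j + 1) ∈ II 1 := by
      rw [e]
      exact Ideal.add_mem _ (Ideal.pow_le_self two_ne_zero hG) (three_mul_mem _)
    have h4 := proj_mem_II (w0 j) h3
    rw [proj_sub, proj_sub, proj_self h.2, proj_self (isWt_int_mul c (isWt_tpow ht j)), ← d_C,
      proj_d] at h4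
    have h5 := sub_mem h4 (three_mul_mem (proj (w0 j) h'))
    change h.1 - d 0 (proj _ (C Z)) - (3 : ℤ) • proj _ h' - _ ∈ _
    rw [zsmul_eq_mul]
    convert h5 using 1
    push_cast
    ring
  · have h4 : d 1 (h.1 - D Z - (c : Cob Laz 1) * t ^ 3 ^ (j + 1)) = d 1 G + 3 * d 1 h' := by
      rw [e, map_add, d_three_mul]
    rw [map_sub, map_sub, d_D, d_int_mul, hd, hr] at h4
    have h5 : x.1 - d 1 h' + c * bj t j + 3 * (c * r) ∈ II 2 := by
      apply mem_II_of_three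
      have := d_mem_sq hG
      rwa [show 3 * (x.1 - d 1 h' + c * bj t j + 3 * (c * r)) = d 1 G by linear_combination h4]
    have h6 := proj_mem_II (w0 j) (sub_mem h5 (three_mul_mem ((c : Cob Laz 2) * r)))
    rw [add_sub_cancel_right, proj_add, proj_sub, proj_self x.2,
      proj_self (isWt_int_mul c (isWt_bj ht j)), proj_d] at h6
    exact h6

end Vale.Agent.P236K.St5
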