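import Vale.Agent.P236K.St5.Alg
import Vale.Agent.P236K.St.Spec
import Vale.Agent.P236Z.Dt.HF
import Vale.Agent.P251.B.Final
import Vale.Agent.P251.S.AmitsurCup

/-!
# P236, block St5: the Kervaire classes in the tower of `MU`

* `hi1` : a nonzero Hopf invariant excludes filtration two;
* `FD`, `KW`, `Kerv` : lifts to the first two stages of the tower of `MU`;
* `fd_of_not_af`, `kerv_of_f`, `kerv_of_g`, `kerv_zero` : existence of the lifts;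
* `FD.hopf` : the Hopf invariant; `KW.push` : the image in a tower of `H`.
-/

open CategoryTheory MonoidalCategory MonObj Limits Pretriangulated

set_option linter.unusedSectionVars false

universe v u

namespace Vale.Agent.P236K.St5

open Vale.Agent.P251 Vale.Agent.P251.S Vale.Agent.P251.T Vale.Agent.P251.M Vale.Agent.P251.F
  Vale.Agent.P251.I Vale.Agent.P251.H Vale.Agent.P236Z Vale.Agent.P236Z.Dt Vale.Agent.P236Z.Tr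

variable {T : Type u} [Category.{v} T] [Preadditive T] [HasZeroObject T]
    [HasShift T ℤ] [∀ n : ℤ, (shiftFunctor T n).Additive] [Pretriangulated T] [IsTriangulated T]
    [MonoidalCategory T] [SymmetricCategory T] [TensorTriangulated T] [MonoidalClosed T]
    [HasCoproducts.{0} T] [HasProducts.{0} T] [StableCat T]

section Coh

variable {X Y Z X' Y' : T} [MonObj X] [MonObj Y] [MonObj Z] [MonObj X'] [MonObj Y']

@[reassoc]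
theorem inl_ten (f : X ⟶ X') (g : Y ⟶ Y') [IsMonHom g] :
    inlM X Y ≫ (f ⊗ₘ g) = f ≫ inlM X' Y' := by
  rw [MonoidalCategory.tensorHom_def, inlM_whiskerRight_assoc, inlM_whiskerLeft]

@[reassoc]
theorem inr_ten (f : X ⟶ X') (g : Y ⟶ Y') [IsMonHom f] :
    inrM X Y ≫ (f ⊗ₘ g) = g ≫ inrM X' Y' := by
  rw [MonoidalCategory.tensorHom_def, inrM_whiskerRight_assoc, inrM_whiskerLeft]

theorem inr_unit : inrM (𝟙_ T) X ≫ (λ_ X).hom = 𝟙 X := by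
  change ((λ_ X).inv ≫ (𝟙 (𝟙_ T) ▷ X)) ≫ _ = _
  simp

end Coh

section Maps

variable {D : MUData T} (U : UnitCof D.R) {H : T} [MonObj H] [IsCommMonObj H] (u : D.R ⟶ H)
  [IsMonHom u]

/-- the map on the cobar complex in degree one -/
noncomputable def L2 : Am D.R 2 ⟶ H ⊗ H := Am.lift ![u ≫ inlM H H, u ≫ inrM H H]

/-- the map on the cobar complex in degree two -/
noncomputable def L3 : Am D.R 3 ⟶ H ⊗ H ⊗ H :=
  Am.lift ![u ≫ inlM H (H ⊗ H), u ≫ inlM H H ≫ inrM H (H ⊗ H), u ≫ inrM H H ≫ inrM H (H ⊗ H)]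

instance : IsMonHom (L2 u) := by
  unfold L2
  infer_instance

instance : IsMonHom (L3 u) := by
  unfold L3
  infer_instance

theorem L2_eq : L2 u = ((λ_ D.R).hom ▷ D.R) ≫ (u ⊗ₘ u) := by
  refine Am.hom_ext fun i => ?_
  rw [L2, Am.v_lift]
  fin_cases i
  · change u ≫ inlM H H = (inrM (𝟙_ T) D.R ≫ inlM _ D.R) ≫ _
    rw [Category.assoc, inlM_whiskerRight_assoc, reassoc_of% inr_unit, inl_ten]
  · change u ≫ inrM H H = (inrM _ D.R) ≫ _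
    rw [inrM_whiskerRight_assoc, inr_ten]

theorem L3_eq : L3 u = (((λ_ D.R).hom ▷ D.R) ▷ D.R) ≫ (α_ _ _ _).hom ≫ (u ⊗ₘ (u ⊗ₘ u)) := by
  refine Am.hom_ext fun i => ?_
  rw [L3, Am.v_lift]
  fin_cases i
  · change u ≫ inlM H (H ⊗ H) = ((inrM (𝟙_ T) D.R ≫ inlM _ D.R) ≫ inlM _ D.R) ≫ _
    rw [Category.assoc, Category.assoc, inlM_whiskerRight_assoc, inlM_whiskerRight_assoc,
      reassoc_of% inr_unit, inlM_associator_assoc, inlM_whiskerLeft_assoc, inl_ten]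
  · change u ≫ inlM H H ≫ inrM H (H ⊗ H) = (inrM _ D.R ≫ inlM _ D.R) ≫ _
    rw [Category.assoc, inlM_whiskerRight_assoc, inrM_whiskerRight_assoc, inlM_associator_assoc,
      inrM_whiskerLeft_assoc, inr_ten, inl_ten_assoc]
  · change u ≫ inrM H H ≫ inrM H (H ⊗ H) = (inrM _ D.R) ≫ _
    rw [inrM_whiskerRight_assoc, inrM_associator_assoc, inr_ten, inr_ten_assoc]

theorem qA2 : (D.qAm U 2).inv = ((λ_ D.R).hom ▷ D.R) ≫ (D.R ◁ (ρ_ D.R).inv) := by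
  change ((ρ_ _).inv ≫ (α_ _ _ _).hom ≫ (α_ _ _ _).hom ≫ (λ_ _).hom) = _
  monoidal

theorem qA3 : (D.qAm U 3).inv = (((λ_ D.R).hom ▷ D.R) ▷ D.R) ≫ (α_ _ _ _).hom ≫
    (D.R ◁ (D.R ◁ (ρ_ D.R).inv)) := by
  change ((ρ_ _).inv ≫ (α_ _ _ _).hom ≫ (α_ _ _ _).hom ≫ (α_ _ _ _).hom ≫ (λ_ _).hom) = _
  monoidal

variable {U u} {Y₁ Y₂ : T} {k₀ : H ⊗ 𝟙_ T ⟶ Y₁} {k₁ : H ⊗ Y₁ ⟶ Y₂}
  {φ₁ : U.cobar.B 1 (𝟙_ T) ⟶ Y₁} {φ₂ : U.cobar.B 2 (𝟙_ T) ⟶ Y₂}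

theorem qq1 (h₁ : U.cobar.k 0 (𝟙_ T) ≫ φ₁ = (u ▷ 𝟙_ T) ≫ k₀) :
    qq D U 1 ≫ (u ⊗ₘ φ₁) = L2 u ≫ (H ◁ ((ρ_ H).inv ≫ k₀)) := by
  have h : U.cobar.q 1 (𝟙_ T) = D.R ◁ U.cobar.k 0 (𝟙_ T) := Category.comp_id _
  rw [qq, h, qA2, L2_eq, Category.assoc, Category.assoc, Category.assoc,
    whiskerLeft_comp_tensorHom, whiskerLeft_comp_tensorHom, tensorHom_comp_whiskerLeft, h₁,
    rightUnitor_inv_naturality_assoc]

theorem qq2 (h₁ : U.cobar.k 0 (𝟙_ T) ≫ φ₁ = (u ▷ 𝟙_ T) ≫ k₀)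
    (h₂ : U.cobar.k 1 (𝟙_ T) ≫ φ₂ = (u ⊗ₘ φ₁) ≫ k₁) :
    qq D U 2 ≫ (u ⊗ₘ φ₂) = L3 u ≫ (H ◁ ((H ◁ ((ρ_ H).inv ≫ k₀)) ≫ k₁)) := by
  have h : U.cobar.q 2 (𝟙_ T) = D.R ◁ ((D.R ◁ U.cobar.k 0 (𝟙_ T)) ≫ U.cobar.k 1 (𝟙_ T)) :=
    CobarData.q_two _ _
  have h3 : (D.R ◁ (ρ_ D.R).inv) ≫ (D.R ◁ U.cobar.k 0 (𝟙_ T)) ≫ (u ⊗ₘ φ₁) =
      (u ⊗ₘ u) ≫ (H ◁ ((ρ_ H).inv ≫ k₀)) := by
    rw [whiskerLeft_comp_tensorHom, whiskerLeft_comp_tensorHom, tensorHom_comp_whiskerLeft, h₁,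
      rightUnitor_inv_naturality_assoc]
  rw [qq, h, qA3, L3_eq]
  simp only [Category.assoc]
  rw [whiskerLeft_comp_tensorHom, whiskerLeft_comp_tensorHom, tensorHom_comp_whiskerLeft,
    Category.assoc, h₂, reassoc_of% h3]

theorem exists_phi1 (U : UnitCof D.R) (u : D.R ⟶ H) [IsMonHom u]
    (h₀ : unitMap H (𝟙_ T) ≫ k₀ = 0) :
    ∃ φ₁ : U.cobar.B 1 (𝟙_ T) ⟶ Y₁, U.cobar.k 0 (𝟙_ T) ≫ φ₁ = (u ▷ 𝟙_ T) ≫ k₀ :=
  Dist.desc₂ (U.towerTriangle_distinguished 0 (𝟙_ T)) _ (by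
    change unitMap D.R (𝟙_ T) ≫ _ = 0
    rw [unitMap, Category.assoc, ← comp_whiskerRight_assoc, IsMonHom.one_hom, ← h₀, unitMap,
      Category.assoc])

omit [IsCommMonObj H] in
@[reassoc]
theorem un_ten {X Y : T} (u : D.R ⟶ H) [IsMonHom u] (φ : X ⟶ Y) :
    unitMap D.R X ≫ (u ⊗ₘ φ) = φ ≫ unitMap H Y := by
  rw [unitMap_nat, unitMap, unitMap, MonoidalCategory.tensorHom_def, Category.assoc,
    ← comp_whiskerRight_assoc, IsMonHom.one_hom, Category.assoc]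

theorem exists_phi2 (u : D.R ⟶ H) [IsMonHom u] (φ₁ : U.cobar.B 1 (𝟙_ T) ⟶ Y₁)
    (h₁ : unitMap H Y₁ ≫ k₁ = 0) :
    ∃ φ₂ : U.cobar.B 2 (𝟙_ T) ⟶ Y₂, U.cobar.k 1 (𝟙_ T) ≫ φ₂ = (u ⊗ₘ φ₁) ≫ k₁ :=
  Dist.desc₂ (U.towerTriangle_distinguished 1 (𝟙_ T)) _ (by
    rw [un_ten_assoc, h₁, comp_zero])

end Maps

section Filt

variable {H : T} [MonObj H]

theorem unit_rho : unitMap H (𝟙_ T) ≫ (ρ_ H).hom = η[H] :=
  show hur η[H] (𝟙_ T) ≫ (ρ_ H).hom = η[H] from hur_unit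

theorem null_iff {X Y : T} {f : X ⟶ Y} : Null η[H] f ↔ H ◁ f = 0 :=
  ⟨fun h => null_of_un h, fun h => by rw [Null, hur_naturality, h, comp_zero]⟩

theorem af_shift (k : ℤ) : ∀ {s : ℕ} {X Y : T} {f : X ⟶ Y}, AF η[H] s f → AF η[H] s (f⟦k⟧')
  | 0, _, _, _, _ => trivial
  | _ + 1, _, _, _, ⟨_, _, _, e, hg, hh⟩ => by
    rw [e, Functor.map_comp]
    exact AF.succ (af_shift k hg) (null_iff.2 (null_shift (null_iff.1 hh) k))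

theorem af_of_shift {s : ℕ} {X Y : T} {f : X ⟶ Y} (h : AF η[H] s (f⟦(1 : ℤ)⟧')) :
    AF η[H] s f := by
  have h'' := ((af_shift (-1) h).post
    ((shiftFunctorCompIsoId T (1 : ℤ) (-1) (add_neg_cancel 1)).hom.app Y)).pre
    ((shiftFunctorCompIsoId T (1 : ℤ) (-1) (add_neg_cancel 1)).inv.app X)
  rw [shift_shift_neg'] at h''
  simpa using h''

theorem af_two {X Y Z : T} {a : X ⟶ Y} {b : Y ⟶ Z} (ha : Null η[H] a) (hb : Null η[H] b) :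
    AF η[H] 2 (a ≫ b) := AF.succ (AF.of_null ha) hb

/-- The boundary map of a triangle whose first map is a unit map is null. -/
theorem null_bd {R : T} [MonObj R] (u : R ⟶ H) [IsMonHom u] {X Y : T} {b : Y ⟶ X⟦(1 : ℤ)⟧}
    (h : b ≫ (unitMap R X)⟦(1 : ℤ)⟧' = 0) : Null η[H] b := by
  have hun : unitMap H X = unitMap R X ≫ (u ▷ X) := by
    rw [unitMap, unitMap, Category.assoc, ← comp_whiskerRight, IsMonHom.one_hom]
  change b ≫ unitMap H _ = 0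
  rw [← cancel_mono (csh H 1 _).hom, Category.assoc, unitMap_csh, zero_comp, hun,
    Functor.map_comp, reassoc_of% h, zero_comp]

/-- (HI1) A nonzero Hopf invariant excludes filtration two. -/
theorem hi1 {W : T} (f : W ⟶ 𝟙_ T) (hW : ∀ g : W⟦(1 : ℤ)⟧ ⟶ H, g = 0) {P : T} (y : P ⟶ H ⊗ H)
    (hP : ∀ g : P ⟶ H, g = 0) (h : St.Hopf η[H] f y) (hy : y ≠ 0) : ¬ AF η[H] 2 f := by
  rintro ⟨Z, a, b, rfl, ha, hb⟩
  obtain ⟨C, i, p, r, y', hC, hr, rfl⟩ := h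
  obtain ⟨Y, k, d, hY⟩ := exists_cone η[H]
  obtain ⟨F, h1, h2⟩ := hC.rot.map₃ hY (𝟙 _) r (by rw [hr, Category.id_comp])
  obtain ⟨b', hb'⟩ := hY.lift₁ (b⟦(1 : ℤ)⟧') (by
    rw [← Functor.map_comp, (null_unit_iff b).1 hb, Functor.map_zero])
  obtain ⟨s, hs⟩ := hY.lift₃ (F + a⟦(1 : ℤ)⟧' ≫ b') (by
    rw [Preadditive.add_comp, ← h2, Category.assoc, hb', CategoryTheory.Functor.map_id,
      Category.comp_id, Functor.map_comp, neg_add_cancel])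
  rw [hW s, zero_comp, eq_comm, add_eq_zero_iff_eq_neg] at hs
  have h3 : H ◁ F = 0 := by
    rw [hs, ← Preadditive.comp_neg, MonoidalCategory.whiskerLeft_comp,
      null_shift (null_iff.1 ha.null) 1, zero_comp]
  obtain ⟨e, hE⟩ := dist_tensL hY H
  obtain ⟨s', hs'⟩ := hE.lift₂ (y' ≫ H ◁ r) (by
    rw [Category.assoc, ← MonoidalCategory.whiskerLeft_comp, ← h1,
      MonoidalCategory.whiskerLeft_comp, h3, comp_zero, comp_zero])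
  apply hy
  rw [← hs', ← Category.comp_id s', ← (ρ_ H).hom_inv_id, ← Category.assoc s', hP (s' ≫ _),
    zero_comp, zero_comp]

end Filt

section Data

variable (D : MUData T) (U : UnitCof D.R) {w₀ w : ℤ} (hw : w₀ + 1 = w) {C : T}

/-- `f` lifts to the first stage of the tower of `MU` with cochain `h` on the top cell. -/
def FD (δ : C ⟶ ((stdEven T).S w₀)⟦(1 : ℤ)⟧) (f : C ⟶ 𝟙_ T) (h : Cob.wt Laz 1 w) : Prop :=
  ∃ F : C⟦(1 : ℤ)⟧ ⟶ U.cobar.B 1 (𝟙_ T), F ≫ U.bd 0 (𝟙_ T) = f⟦(1 : ℤ)⟧' ∧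
    F ≫ unitMap D.R _ = δ⟦(1 : ℤ)⟧' ≫ (eS hw).inv ≫ D.evw 1 w h ≫ qq D U 1

/-- The image of the cochain `h` in the second stage of the tower is divisible by three. -/
def KW (h : Cob.wt Laz 1 w) : Prop :=
  ∃ W : (stdEven T).S w ⟶ U.cobar.B 2 (𝟙_ T),
    (3 : ℤ) • W = D.evw 1 w h ≫ qq D U 1 ≫ U.cobar.k 1 (𝟙_ T)

variable {i : (stdEven T).S w₀ ⟶ C} {δ : C ⟶ ((stdEven T).S w₀)⟦(1 : ℤ)⟧}
  (hC : Dist ((3 : ℤ) • 𝟙 ((stdEven T).S w₀)) i δ)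

include hC

theorem three_δ : (3 : ℤ) • δ = 0 := by
  have h := hC.zero₃₁
  rwa [Functor.map_zsmul, CategoryTheory.Functor.map_id, Preadditive.comp_zsmul,
    Category.comp_id] at h

theorem three_i : (3 : ℤ) • i = 0 := by
  have h := hC.zero₁₂
  rwa [Preadditive.zsmul_comp, Category.id_comp] at h

theorem δ_three {Y : T} (b : (stdEven T).S w ⟶ Y) :
    δ⟦(1 : ℤ)⟧' ≫ (eS hw).inv ≫ ((3 : ℤ) • b) = 0 := by
  rw [Preadditive.comp_zsmul, Preadditive.comp_zsmul, ← Preadditive.zsmul_comp,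
    ← Functor.map_zsmul, three_δ hC, Functor.map_zero, zero_comp]

theorem div_three {Y : T} (a : (stdEven T).S w ⟶ Y) (h : δ⟦(1 : ℤ)⟧' ≫ (eS hw).inv ≫ a = 0) :
    ∃ b, (3 : ℤ) • b = a := by
  obtain ⟨b, hb⟩ := hC.rot.rot.rot.desc₁ ((eS hw).inv ≫ a)
    (by rw [Preadditive.neg_comp, h, neg_zero])
  refine ⟨(eS hw).hom ≫ (-b), ?_⟩
  rw [← Preadditive.comp_zsmul, ← Iso.eq_inv_comp, ← hb, Functor.map_neg, Functor.map_zsmul,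
    Functor.map_zsmul, CategoryTheory.Functor.map_id, CategoryTheory.Functor.map_id,
    Preadditive.neg_comp, Preadditive.zsmul_comp, Category.id_comp, smul_neg]

/-- The lift to the first stage and its cochain. -/
theorem exists_FD (f : C ⟶ 𝟙_ T) : ∃ (h : Cob.wt Laz 1 w) (x : Cob.wt Laz 2 w),
    Cob.dwt Laz 1 w h = (3 : ℤ) • x ∧ FD D U hw δ f h := by
  have hp : (3 : ℕ) ≠ 2 := by norm_num
  have h1 : f ≫ unitMap D.R (𝟙_ T) = 0 := by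
    obtain ⟨g, hg⟩ := hC.desc₃ (f ≫ unitMap D.R (𝟙_ T)) (tf_even D U hp 0 w₀ _ (by
      rw [← Preadditive.zsmul_comp, Nat.cast_ofNat, three_i hC, zero_comp]))
    obtain ⟨g', rfl⟩ := div_odd D U hp 0 w₀ 1 g
    rw [← hg, pow_one, Preadditive.comp_zsmul, ← Preadditive.zsmul_comp, Nat.cast_ofNat,
      three_δ hC, zero_comp]
  obtain ⟨F, hF⟩ := Dist.lift₁ (U.towerTriangle_distinguished 0 (𝟙_ T)) (f⟦(1 : ℤ)⟧')
    (by rw [← Functor.map_comp, h1, Functor.map_zero])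
  obtain ⟨c, hc, hq⟩ : ∃ c : C⟦(1 : ℤ)⟧ ⟶ U.cobar.Q 2 (𝟙_ T), c ≫ U.cobar.d 2 (𝟙_ T) = 0 ∧
      c ≫ U.cobar.q 1 (𝟙_ T) = F ≫ unitMap D.R (U.cobar.B 1 (𝟙_ T)) :=
    U.cobar.exists_cocycle (F := preadditiveCoyoneda.obj (Opposite.op (C⟦(1 : ℤ)⟧))) 1 (𝟙_ T)
      (F ≫ unitMap D.R _) (by
        change (F ≫ U.cobar.un _) ≫ U.cobar.D 1 (𝟙_ T) = 0
        rw [CobarData.D, Category.assoc, CobarData.un_k_assoc, zero_comp, comp_zero])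
  obtain ⟨b, hb⟩ := hC.rot.rot.rot.desc₃ c (by
    have h2 := tf_odd D U hp 1 w ((eS hw).hom ≫ (i⟦(1 : ℤ)⟧' ≫ c)⟦(1 : ℤ)⟧') (by
      rw [← Preadditive.comp_zsmul, ← Functor.map_zsmul, ← Preadditive.zsmul_comp,
        ← Functor.map_zsmul, Nat.cast_ofNat, three_i hC, Functor.map_zero, zero_comp,
        Functor.map_zero, comp_zero])
    rw [Preadditive.IsIso.comp_left_eq_zero, Functor.map_eq_zero_iff] at h2
    rw [Preadditive.neg_comp, h2, neg_zero])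
  obtain ⟨z, a, hz⟩ := surj_pow D U hp 1 w 1 ((eS hw).hom ≫ (-b))
  have h3 : c = δ⟦(1 : ℤ)⟧' ≫ (eS hw).inv ≫ D.phi U 1 w z := by
    rw [← Iso.eq_inv_comp, neg_eq_iff_eq_neg] at hz
    rw [← hb, hz, Preadditive.neg_comp_neg, Preadditive.comp_add, Preadditive.comp_add, pow_one,
      Nat.cast_ofNat, δ_three hw hC, add_zero]
  obtain ⟨a', ha⟩ := div_three hw hC (D.phi U 2 w (Cob.dwt Laz 1 w z)) (by
    rw [D.phi_d, ← hc, h3, Category.assoc, Category.assoc])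
  obtain ⟨x, hx⟩ := ker_pow D U hp 2 w 1 _ a' (by rw [← ha, pow_one, Nat.cast_ofNat])
  refine ⟨z, x, by rw [hx, pow_one, Nat.cast_ofNat], F, hF, ?_⟩
  rw [← hq, h3, D.phi_apply, qq]
  simp only [Category.assoc]

variable {D U hw}

theorem FD.adjust {f : C ⟶ 𝟙_ T} {h : Cob.wt Laz 1 w} (hf : FD D U hw δ f h)
    (z : Cob.wt Laz 0 w) (g : Cob.wt Laz 1 w) :
    FD D U hw δ f (h - Cob.dwt Laz 0 w z - (3 : ℤ) • g) := by
  obtain ⟨F, h1, h2⟩ := hf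
  refine ⟨F - δ⟦(1 : ℤ)⟧' ≫ (eS hw).inv ≫ D.evw 0 w z ≫ qq D U 0 ≫ U.cobar.k 0 (𝟙_ T), ?_, ?_⟩
  · have h3 : U.cobar.k 0 (𝟙_ T) ≫ U.bd 0 (𝟙_ T) = 0 :=
      Dist.zero₂₃ (U.towerTriangle_distinguished 0 (𝟙_ T))
    simp only [Preadditive.sub_comp, Category.assoc, h1, h3, comp_zero, sub_zero]
  · rw [map_sub, map_sub, map_zsmul, D.evw_dwt, ← dd]
    simp only [Preadditive.sub_comp, Preadditive.comp_sub, Category.assoc, h2, dd_qq D U 0,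
      Preadditive.zsmul_comp]
    rw [δ_three hw hC, sub_zero]

theorem FD.kw {f : C ⟶ 𝟙_ T} {h : Cob.wt Laz 1 w} (hf : FD D U hw δ f h) : KW D U h := by
  obtain ⟨F, -, h2⟩ := hf
  refine div_three hw hC _ ?_
  have h3 : unitMap D.R _ ≫ U.cobar.k 1 (𝟙_ T) = 0 := U.cobar.un_k 1 (𝟙_ T)
  rw [← reassoc_of% h2, h3, comp_zero]

variable (hw) in
theorem KW.fd {h : Cob.wt Laz 1 w} (hk : KW D U h) : ∃ f, FD D U hw δ f h := by
  obtain ⟨W, hW⟩ := hk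
  obtain ⟨F, hF⟩ := Dist.lift₂ (U.towerTriangle_distinguished 1 (𝟙_ T))
    (δ⟦(1 : ℤ)⟧' ≫ (eS hw).inv ≫ D.evw 1 w h ≫ qq D U 1) (by
      simp only [Category.assoc]
      rw [← hW, δ_three hw hC])
  obtain ⟨f, hf⟩ := (shiftFunctor T (1 : ℤ)).map_surjective (F ≫ U.bd 0 (𝟙_ T))
  exact ⟨f, F, hf.symm, hF⟩

variable (hw) in
/-- The extension of the class given by `W` over the Moore object. -/
theorem fd_of_W {h : Cob.wt Laz 1 w} {W : (stdEven T).S w ⟶ U.cobar.B 2 (𝟙_ T)}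
    (hW : (3 : ℤ) • W = D.evw 1 w h ≫ qq D U 1 ≫ U.cobar.k 1 (𝟙_ T)) :
    ∃ f, FD D U hw δ f h ∧ (eS hw).hom ≫ ((i ≫ f)⟦(1 : ℤ)⟧')⟦(1 : ℤ)⟧' =
      -(W ≫ U.bd 1 (𝟙_ T) ≫ (U.bd 0 (𝟙_ T))⟦(1 : ℤ)⟧') := by
  obtain ⟨F, h1, h2⟩ := hC.rot.rot.rot.rot.rot.map₁ (U.towerTriangle_distinguished 1 (𝟙_ T))
    (-((eS hw).inv ≫ D.evw 1 w h ≫ qq D U 1)) (-((eS hw).inv ≫ W)) (by
      rw [Functor.map_neg, neg_neg, Functor.map_zsmul, Functor.map_zsmul,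
        CategoryTheory.Functor.map_id, CategoryTheory.Functor.map_id, Preadditive.zsmul_comp,
        Category.id_comp, smul_neg, ← Preadditive.comp_zsmul, hW, Preadditive.neg_comp,
        Category.assoc, Category.assoc])
  obtain ⟨f, hf⟩ := (shiftFunctor T (1 : ℤ)).map_surjective (F ≫ U.bd 0 (𝟙_ T))
  rw [Preadditive.neg_comp_neg] at h1
  rw [Functor.map_neg, neg_neg] at h2
  refine ⟨f, ⟨F, hf.symm, h1.symm⟩, ?_⟩
  rw [Functor.map_comp, hf, Functor.map_comp, Functor.map_comp, reassoc_of% h2,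
    Preadditive.neg_comp, Preadditive.comp_neg, Category.assoc, Iso.hom_inv_id_assoc]

omit hC

theorem KW.adjust {h : Cob.wt Laz 1 w} (hk : KW D U h) (z : Cob.wt Laz 0 w)
    (g : Cob.wt Laz 1 w) : KW D U (h - Cob.dwt Laz 0 w z - (3 : ℤ) • g) := by
  obtain ⟨W, hW⟩ := hk
  have h3 : unitMap D.R _ ≫ U.cobar.k 1 (𝟙_ T) = 0 := U.cobar.un_k 1 (𝟙_ T)
  refine ⟨W - D.evw 1 w g ≫ qq D U 1 ≫ U.cobar.k 1 (𝟙_ T), ?_⟩
  rw [map_sub, map_sub, map_zsmul, D.evw_dwt, ← dd, smul_sub, hW]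
  simp only [Preadditive.sub_comp, Category.assoc, dd_qq_assoc D U 0, Preadditive.zsmul_comp, h3,
    comp_zero, sub_zero]

theorem unit_W {h : Cob.wt Laz 1 w} {x : Cob.wt Laz 2 w} (hx : Cob.dwt Laz 1 w h = (3 : ℤ) • x)
    {W : (stdEven T).S w ⟶ U.cobar.B 2 (𝟙_ T)}
    (hW : (3 : ℤ) • W = D.evw 1 w h ≫ qq D U 1 ≫ U.cobar.k 1 (𝟙_ T)) :
    W ≫ unitMap D.R _ = D.evw 2 w x ≫ qq D U 2 := by
  obtain ⟨M, i, δ, hM⟩ := exists_cone (((3 : ℕ) : ℤ) • 𝟙 (𝟙_ T))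
  rw [← sub_eq_zero, ← cancel_epi (B.sphE T w).inv, comp_zero]
  refine B.torsionFree_W D U (p := 3) (by norm_num) hM 2 w _ ?_
  rw [← Preadditive.comp_zsmul, smul_sub, ← Preadditive.zsmul_comp, ← Preadditive.zsmul_comp,
    ← map_zsmul, Nat.cast_ofNat, hW, ← hx, D.evw_dwt, ← dd]
  simp only [Category.assoc, dd_qq D U 1, sub_self, comp_zero]

end Data

section Push

variable {D : MUData T} {U : UnitCof D.R} {H : T} [MonObj H] [IsCommMonObj H]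
  (hH : IsHF 3 η[H]) (u : D.R ⟶ H) [IsMonHom u] {w₀ w : ℤ} {hw : w₀ + 1 = w} {C : T}

include hH

omit [IsCommMonObj H] in
theorem three_eta : ((3 : ℕ) : ℤ) • η[H] = 0 := (hH.ord _).2 dvd_rfl

omit [IsCommMonObj H] in
theorem three_ten {P Y : T} (b : P ⟶ H ⊗ Y) : (3 : ℤ) • b = 0 := by
  have h : (((3 : ℕ) : ℤ) • η[H]) ▷ (H ⊗ Y) = ((3 : ℕ) : ℤ) • (η[H] ▷ (H ⊗ Y)) :=
    (tensorRight _).map_zsmul ..
  rw [← Category.comp_id b, ← Preadditive.comp_zsmul, ← unitMap_mulMap, ← Preadditive.zsmul_comp,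
    unitMap, ← Preadditive.comp_zsmul, ← Nat.cast_ofNat (R := ℤ) (n := 3), ← h, three_eta hH,
    MonoidalPreadditive.zero_whiskerRight, comp_zero, zero_comp, comp_zero]

omit [IsCommMonObj H] in
theorem sph_zero (h0 : w ≠ 0) (g : (stdEven T).S w ⟶ H) : g = 0 := by
  rw [← cancel_epi (B.sphE T w).inv, hH.conc _ (by omega) (_ ≫ _), comp_zero]

theorem evw_L2 {x : Cob.wt Laz 1 w} (hx : x.1 ∈ Det.II 1) : D.evw 1 w x ≫ L2 u = 0 :=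
  evw_thom D hH.conc (three_eta hH) u (inlM H H) (L2 u) (Am.v_lift _ _) (h := 3) x hx

theorem evw_L3 {x : Cob.wt Laz 2 w} (hx : x.1 ∈ Det.II 2) : D.evw 2 w x ≫ L3 u = 0 :=
  evw_thom D hH.conc (three_eta hH) u (inlM H (H ⊗ H)) (L3 u) (Am.v_lift _ _) (h := 3) x hx

omit hH in
/-- The map from the first stage of the tower of `MU` to the cofibre of the unit of `H`. -/
theorem exists_phi {Y : T} {k : H ⟶ Y} {b : Y ⟶ (𝟙_ T)⟦(1 : ℤ)⟧} (hY : Dist η[H] k b)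
    (U : UnitCof D.R) : ∃ φ : U.cobar.B 1 (𝟙_ T) ⟶ Y, φ ≫ b = U.bd 0 (𝟙_ T) ∧
      U.cobar.k 0 (𝟙_ T) ≫ φ = (u ▷ 𝟙_ T) ≫ (ρ_ H).hom ≫ k ∧
      qq D U 1 ≫ (u ⊗ₘ φ) = L2 u ≫ (H ◁ k) ∧ Null η[H] b := by
  obtain ⟨φ, h1, h2⟩ := Dist.map₃ (U.towerTriangle_distinguished 0 (𝟙_ T)) hY (𝟙 _)
    ((u ▷ 𝟙_ T) ≫ (ρ_ H).hom) (by
      rw [Category.id_comp, ← unit_rho, unitMap, unitMap, Category.assoc, Category.assoc,
        ← comp_whiskerRight_assoc, IsMonHom.one_hom])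
  rw [CategoryTheory.Functor.map_id, Category.comp_id] at h2
  rw [Category.assoc] at h1
  refine ⟨φ, h2.symm, h1, ?_, null_bd (𝟙 H) ?_⟩
  · rw [qq1 h1, Iso.inv_hom_id_assoc]
  · have h3 : unitMap H (𝟙_ T) = η[H] ≫ (ρ_ H).inv := by
      rw [Iso.eq_comp_inv]
      exact unit_rho
    rw [h3, Functor.map_comp, reassoc_of% hY.zero₃₁, zero_comp]

variable {δ : C ⟶ ((stdEven T).S w₀)⟦(1 : ℤ)⟧}

include u in
theorem FD.af {f : C ⟶ 𝟙_ T} {h : Cob.wt Laz 1 w} (hf : FD D U hw δ f h)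
    (hh : h.1 ∈ Det.II 1) : AF η[H] 2 f := by
  obtain ⟨F, h1, h2⟩ := hf
  obtain ⟨Y, k, b, hY⟩ := exists_cone η[H]
  obtain ⟨φ, h3, -, h4, h5⟩ := exists_phi u hY U
  apply af_of_shift
  rw [← h1, ← h3, ← Category.assoc]
  refine af_two ?_ h5
  change (F ≫ φ) ≫ unitMap H Y = 0
  rw [Category.assoc, ← un_ten u, reassoc_of% h2, h4, reassoc_of% (evw_L2 hH u hh), zero_comp,
    comp_zero, comp_zero]

/-- The Hopf invariant is the image of the cochain. -/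
theorem FD.hopf {i : (stdEven T).S w₀ ⟶ C} (hC : Dist ((3 : ℤ) • 𝟙 ((stdEven T).S w₀)) i δ)
    (h0 : w ≠ 0) {f : C ⟶ 𝟙_ T} {h : Cob.wt Laz 1 w} (hf : FD D U hw δ f h) :
    St.Hopf η[H] f (D.evw 1 w h ≫ L2 u) := by
  obtain ⟨F, h1, h2⟩ := hf
  obtain ⟨Y, k, b, hY⟩ := exists_cone η[H]
  obtain ⟨φ, h3, -, h4, h5⟩ := exists_phi u hY U
  obtain ⟨C', i', p, hC'⟩ := exists_cone f
  obtain ⟨r, h6, h7⟩ := hC'.rot.map₂ hY (𝟙 _) (-(F ≫ φ)) (by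
    rw [CategoryTheory.Functor.map_id, Category.comp_id, Preadditive.neg_comp, Category.assoc,
      h3, h1])
  obtain ⟨_, E₁⟩ := dist_tensL hC.rot.rot.rot.rot.rot H
  obtain ⟨y₁, hy₁⟩ := E₁.lift₂ ((eS hw).hom ≫ unitMap H _) (by
    rw [Category.assoc, ← unitMap_nat, Functor.map_neg, neg_neg, Functor.map_zsmul,
      Functor.map_zsmul, Preadditive.zsmul_comp, Preadditive.comp_zsmul, three_ten hH])
  obtain ⟨_, E₂⟩ := dist_tensL hC'.rot.rot H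
  obtain ⟨y₀, hy₀⟩ := E₂.lift₂ y₁ (by
    rw [← h1, ← h3, ← Preadditive.neg_comp, ← Category.assoc, MonoidalCategory.whiskerLeft_comp,
      null_iff.1 h5, comp_zero, comp_zero])
  obtain ⟨_, E₃⟩ := dist_tensL hY H
  have h8 : -(F ≫ φ) ≫ unitMap H Y =
      (-δ⟦(1 : ℤ)⟧') ≫ (eS hw).inv ≫ D.evw 1 w h ≫ L2 u ≫ (H ◁ k) := by
    rw [Category.assoc, ← un_ten u, reassoc_of% h2, h4, Preadditive.neg_comp]
  obtain ⟨s, hs⟩ := E₃.lift₂ (y₀ ≫ H ◁ r - D.evw 1 w h ≫ L2 u) (by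
    rw [Preadditive.sub_comp, Category.assoc, ← MonoidalCategory.whiskerLeft_comp, ← h7,
      MonoidalCategory.whiskerLeft_comp, reassoc_of% hy₀, ← Category.comp_id (H ◁ (-(F ≫ φ))),
      ← whiskerLeft_unitMap_mulMap, ← MonoidalCategory.whiskerLeft_comp_assoc,
      Preadditive.neg_comp, h8, MonoidalCategory.whiskerLeft_comp, Category.assoc,
      reassoc_of% hy₁, ← unitMap_nat_assoc, unitMap_mulMap, Category.comp_id,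
      Iso.hom_inv_id_assoc, Category.assoc, sub_self])
  refine ⟨C', i', p, r, y₀, hC', by rw [h6, Category.id_comp], ?_⟩
  rw [← sub_eq_zero, ← hs, ← Category.comp_id s, ← (ρ_ H).hom_inv_id, ← Category.assoc s,
    sph_zero hH h0 (s ≫ _), zero_comp, zero_comp]

omit hH in
/-- The image in a tower of `H`. -/
theorem KW.push {h : Cob.wt Laz 1 w} {x : Cob.wt Laz 2 w} (hk : KW D U h)
    (hx : Cob.dwt Laz 1 w h = (3 : ℤ) • x) {Y₁ Y₂ : T} (k₀ : H ⊗ 𝟙_ T ⟶ Y₁) (k₁ : H ⊗ Y₁ ⟶ Y₂)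
    (h₀ : unitMap H (𝟙_ T) ≫ k₀ = 0) (h₁ : unitMap H Y₁ ≫ k₁ = 0) :
    ∃ (W : (stdEven T).S w ⟶ Y₂) (s : (stdEven T).S w ⟶ H ⊗ Y₁), (3 : ℤ) • W = s ≫ k₁ ∧
      W ≫ unitMap H Y₂ = D.evw 2 w x ≫ L3 u ≫ (H ◁ ((H ◁ ((ρ_ H).inv ≫ k₀)) ≫ k₁)) := by
  obtain ⟨W, hW⟩ := hk
  obtain ⟨φ₁, e₁⟩ := exists_phi1 U u h₀
  obtain ⟨φ₂, e₂⟩ := exists_phi2 u φ₁ h₁
  refine ⟨W ≫ φ₂, D.evw 1 w h ≫ qq D U 1 ≫ (u ⊗ₘ φ₁), ?_, ?_⟩
  · rw [← Preadditive.zsmul_comp, hW]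
    simp only [Category.assoc, e₂]
  · rw [Category.assoc, ← un_ten u, reassoc_of% (unit_W hx hW), qq2 e₁ e₂]

end Push

section Kerv

variable (D : MUData T) (U : UnitCof D.R) (t : Cob Laz 1) (j : ℕ)

/-- The cochains `h`, `x` are normalized with the coefficient `c`. -/
structure Nrm (h : Cob.wt Laz 1 (Det.w0 j)) (x : Cob.wt Laz 2 (Det.w0 j)) (c : ℤ) : Prop where
  dh : Cob.dwt Laz 1 _ h = (3 : ℤ) • x
  one : h.1 - c * t ^ 3 ^ (j + 1) ∈ Det.II 1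
  two : x.1 + c * bj t j ∈ Det.II 2

/-- The Kervaire class exists in the tower of `MU`. -/
def Kerv : Prop := ∃ h x c, ¬ (3 : ℤ) ∣ c ∧ Nrm t j h x c ∧ KW D U h

variable {t j} (ht : IsT1 3 t)

include ht in
theorem exists_nrm (h : Cob.wt Laz 1 (Det.w0 j)) (x : Cob.wt Laz 2 (Det.w0 j))
    (hx : Cob.dwt Laz 1 _ h = (3 : ℤ) • x) : ∃ z g c,
      Nrm t j (h - Cob.dwt Laz 0 _ z - (3 : ℤ) • g) (x - Cob.dwt Laz 1 _ g) c := by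
  obtain ⟨c, z, g, h1, h2⟩ := normal ht h x hx
  refine ⟨z, g, c, ?_, h1, h2⟩
  have h3 : Cob.dwt Laz 1 _ (Cob.dwt Laz 0 _ z) = 0 := Subtype.ext (Cob.d_d _)
  rw [map_sub, map_sub, map_zsmul, hx, h3, sub_zero, smul_sub]

theorem Nrm.mem {h : Cob.wt Laz 1 (Det.w0 j)} {x : Cob.wt Laz 2 (Det.w0 j)} {c : ℤ}
    (hn : Nrm t j h x c) (hc : (3 : ℤ) ∣ c) : h.1 ∈ Det.II 1 := by
  obtain ⟨c, rfl⟩ := hc
  have h1 := add_mem hn.one (Det.three_mul_mem ((c : Cob Laz 1) * t ^ 3 ^ (j + 1)))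
  convert h1 using 1
  push_cast
  ring

variable {H : T} [MonObj H] [IsCommMonObj H] (hH : IsHF 3 η[H]) {w₀ : ℤ}
  (hw : w₀ + 1 = Det.w0 j)

include ht hH in
/-- A map from the Moore object which does not have filtration two. -/
theorem fd_of_not_af {C : T} {i : (stdEven T).S w₀ ⟶ C} {δ : C ⟶ ((stdEven T).S w₀)⟦(1 : ℤ)⟧}
    (hC : Dist ((3 : ℤ) • 𝟙 ((stdEven T).S w₀)) i δ) (f : C ⟶ 𝟙_ T) (hf : ¬ AF η[H] 2 f) :
    ∃ h x c, ¬ (3 : ℤ) ∣ c ∧ Nrm t j h x c ∧ FD D U hw δ f h := by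
  obtain ⟨u, hu⟩ := exists_thom D hH.conc
  obtain ⟨h, x, hx, hF⟩ := exists_FD D U hw hC f
  obtain ⟨z, g, c, hn⟩ := exists_nrm ht h x hx
  have h1 := hF.adjust hC z g
  exact ⟨_, _, c, fun hc => hf (h1.af hH u (hn.mem hc)), hn, h1⟩

include ht hH hw in
theorem kerv_of_f {C : T} {i : (stdEven T).S w₀ ⟶ C} {δ : C ⟶ ((stdEven T).S w₀)⟦(1 : ℤ)⟧}
    (hC : Dist ((3 : ℤ) • 𝟙 ((stdEven T).S w₀)) i δ) (f : C ⟶ 𝟙_ T) (hf : ¬ AF η[H] 2 f) :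
    Kerv D U t j := by
  obtain ⟨h, x, c, hc, hn, hF⟩ := fd_of_not_af D U ht hH hw hC f hf
  exact ⟨h, x, c, hc, hn, hF.kw hC⟩

include ht hH hw in
/-- A class of the Moore object which does not have filtration two. -/
theorem kerv_of_g {M : T} {i : 𝟙_ T ⟶ M} {δ : M ⟶ (𝟙_ T)⟦(1 : ℤ)⟧}
    (hM : Dist ((3 : ℤ) • 𝟙 (𝟙_ T)) i δ) (g : ((stdEven T).S w₀)⟦(1 : ℤ)⟧ ⟶ M)
    (hg : ¬ AF η[H] 2 g) : Kerv D U t j := by
  have hp : (3 : ℕ) ≠ 2 := by norm_num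
  have hM' : Dist (((3 : ℕ) : ℤ) ^ 1 • 𝟙 (𝟙_ T)) i δ := by rwa [pow_one, Nat.cast_ofNat]
  obtain ⟨u, hu⟩ := exists_thom D hH.conc
  obtain ⟨t₁, h₁⟩ := (dist_bdM D U M 0).lift₁ ((g ≫ (λ_ M).inv)⟦(1 : ℤ)⟧') (by
    rw [← Functor.map_comp, red_odd D U hp hM' 0 w₀ (_ ≫ _), Functor.map_zero])
  obtain ⟨c, hc, hq⟩ : ∃ c : (stdEven T).S (Det.w0 j) ⟶ U.cobar.Q 2 (𝟙_ T) ⊗ M,
      c ≫ (U.cobar.d 2 (𝟙_ T) ▷ M) = 0 ∧ c ≫ (U.cobar.q 1 (𝟙_ T) ▷ M) =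
        ((eS hw).hom ≫ t₁) ≫ (unitMap D.R (U.cobar.B 1 (𝟙_ T)) ▷ M) :=
    U.cobar.exists_cocycle (F := homM ((stdEven T).S (Det.w0 j)) M) 1 (𝟙_ T)
    (((eS hw).hom ≫ t₁) ≫ (unitMap D.R _ ▷ M)) (by
      change (((eS hw).hom ≫ t₁) ≫ (unitMap D.R _ ▷ M)) ≫ (U.cobar.D 1 (𝟙_ T) ▷ M) = 0
      rw [CobarData.D, comp_whiskerRight, Category.assoc, ← Category.assoc (_ ▷ M),
        (dist_bdM D U M 1).zero₁₂, zero_comp, comp_zero])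
  obtain ⟨h, rfl⟩ := red_surj D U hp hM' 1 _ c
  obtain ⟨x, hx⟩ := red_ker D U hp hM' 2 _ (Cob.dwt Laz 1 _ h) (by
    rw [D.phi_d, Category.assoc, red_nat, ← Category.assoc]
    exact hc)
  rw [pow_one, Nat.cast_ofNat] at hx
  have h₂ : ((eS hw).hom ≫ t₁) ≫ (unitMap D.R (U.cobar.B 1 (𝟙_ T)) ▷ M) =
      D.evw 1 _ h ≫ qq D U 1 ≫ red i _ := by
    rw [← hq, Category.assoc, ← red_nat, D.phi_apply, qq, Category.assoc, Category.assoc]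
  have hk : KW D U h := exists_zsmul_of_red hM _ (by
    change _ ≫ red i _ = 0
    rw [Category.assoc, Category.assoc, red_nat, ← reassoc_of% h₂, (dist_bdM D U M 1).zero₁₂,
      comp_zero, comp_zero])
  obtain ⟨z, g', c, hn⟩ := exists_nrm ht h x hx
  refine ⟨_, _, c, fun hc => hg ?_, hn, hk.adjust z g'⟩
  obtain ⟨Y, k, b, hY⟩ := exists_cone η[H]
  obtain ⟨φ, h3, -, h4, h5⟩ := exists_phi u hY U
  have h6 : (g ≫ (λ_ M).inv)⟦(1 : ℤ)⟧' = (eS hw).inv ≫ ((((eS hw).hom ≫ t₁ -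
      D.evw 0 _ z ≫ qq D U 0 ≫ red i _ ≫ (U.cobar.k 0 (𝟙_ T) ▷ M)) ≫ (φ ▷ M)) ≫ (b ▷ M)) ≫
        ((tensorRight M).commShiftIso (1 : ℤ)).hom.app (U.cobar.B 0 (𝟙_ T)) := by
    rw [Category.assoc, Category.assoc, ← comp_whiskerRight_assoc, h3]
    change _ = _ ≫ _ ≫ bdM D U M 0
    simp only [Preadditive.sub_comp, Category.assoc, (dist_bdM D U M 0).zero₂₃, comp_zero,
      sub_zero, Iso.inv_hom_id_assoc, h₁]
  have h7 : AF η[H] 2 (g ≫ (λ_ M).inv) := by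
    apply af_of_shift
    rw [h6]
    refine ((af_two (null_iff.2 (null_of_un' ?_)) (h5.whiskerRight M)).post _).pre _
    have h8 := evw_L2 hH u (hn.mem hc)
    rw [map_sub, map_sub, map_zsmul, D.evw_dwt, ← dd, Preadditive.sub_comp,
      Preadditive.zsmul_comp, three_ten hH, sub_zero] at h8
    rw [Category.assoc, ← comp_whiskerRight, ← un_ten u, comp_whiskerRight, ← Category.assoc,
      Preadditive.sub_comp, h₂]
    simp only [Category.assoc]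
    rw [← red_nat_assoc i (U.cobar.k 0 (𝟙_ T)), ← red_nat, ← dd_qq_assoc D U 0,
      ← Category.assoc _ (dd D 1), ← Preadditive.sub_comp, Category.assoc, Category.assoc,
      ← red_nat, reassoc_of% h4, reassoc_of% h8, zero_comp]
  have h9 := h7.post (λ_ M).hom
  rwa [Category.assoc, Iso.inv_hom_id, Category.comp_id] at h9

include ht in
/-- The class `β₁`. -/
theorem kerv_zero : Kerv D U t 0 := by
  have hp : (3 : ℕ) ≠ 2 := by norm_num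
  let h : Cob.wt Laz 1 (Det.w0 0) := ⟨_, isWt_tpow ht 0⟩
  let x : Cob.wt Laz 2 (Det.w0 0) := -⟨_, isWt_bj ht 0⟩
  have hx : Cob.dwt Laz 1 _ h = (3 : ℤ) • x := Subtype.ext (by
    refine (d_tcube ht).trans ?_
    change _ = (3 : ℤ) • (-bj t 0)
    rw [zsmul_eq_mul]
    norm_num)
  refine ⟨h, x, 1, by norm_num, ⟨hx, ?_, ?_⟩, ?_⟩
  · change t ^ 3 ^ (0 + 1) - _ ∈ _
    rw [Int.cast_one, _root_.one_mul, sub_self]
    exact zero_mem _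
  · change -bj t 0 + _ ∈ _
    rw [Int.cast_one, _root_.one_mul, neg_add_cancel]
    exact zero_mem _
  have h6 : Det.w0 0 = 6 := rfl
  obtain ⟨C, i, δ, hC⟩ := exists_cone (((3 : ℕ) : ℤ) • 𝟙 (𝟙_ T))
  let θ : (𝟙_ T)⟦2 * Det.w0 0⟧ ⟶ (U.tow (𝟙_ T)).W 1 :=
    (B.sphE T _).inv ≫ D.evw 1 _ h ≫ qq D U 1
  obtain ⟨W, hW, -⟩ := B.exists_beta_tower (U.tow (𝟙_ T)) (redC i) (𝟙_ T) ((3 : ℕ) : ℤ) 10
    (fun t y hy => exists_zsmul_of_red hC y hy)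
    (fun s hs => B.van_modP D U hp hC rfl (fun w' hw' => by
      have : (2 : ℤ) ≤ s := by exact_mod_cast hs
      push_cast at hw' ⊢
      omega))
    12 (by norm_num) (fun y => B.conn_red hC (B.conn_B D U 12) _ (by norm_num) y)
    (2 * Det.w0 0) (by rw [h6]; norm_num) θ (by
      have h7 : θ ≫ (redC i).app ((U.tow (𝟙_ T)).W 1) ≫
          (tensorRight C).map ((U.tow (𝟙_ T)).b 1 ≫ (U.tow (𝟙_ T)).a 2) =
          (θ ≫ (U.tow (𝟙_ T)).b 1 ≫ (U.tow (𝟙_ T)).a 2) ≫ (redC i).app ((U.tow (𝟙_ T)).W 2) := by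
        rw [← (redC i).naturality ((U.tow (𝟙_ T)).b 1 ≫ (U.tow (𝟙_ T)).a 2)]
        simp only [Category.assoc, Functor.id_map]
      have h8 : θ ≫ (U.tow (𝟙_ T)).b 1 ≫ (U.tow (𝟙_ T)).a 2 =
          ((3 : ℕ) : ℤ) • ((B.sphE T _).inv ≫ D.evw 2 _ x ≫ qq D U 2) := by
        change ((B.sphE T _).inv ≫ D.evw 1 _ h ≫ qq D U 1) ≫ U.cobar.k 1 (𝟙_ T) ≫
          unitMap D.R (U.cobar.B 2 (𝟙_ T)) = _
        rw [← Preadditive.comp_zsmul, ← Preadditive.zsmul_comp, ← map_zsmul, Nat.cast_ofNat, ← hx,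
          D.evw_dwt, ← dd]
        simp only [Category.assoc, dd_qq D U 1]
      rw [h7, h8]
      exact zsmul_comp_red hC _)
  obtain ⟨W', hW'⟩ : ∃ W' : (𝟙_ T)⟦2 * Det.w0 0⟧ ⟶ U.cobar.B 2 (𝟙_ T), (3 : ℤ) • W' =
      ((B.sphE T _).inv ≫ D.evw 1 _ h ≫ qq D U 1) ≫ U.cobar.k 1 (𝟙_ T) := ⟨W, hW⟩
  refine ⟨(B.sphE T _).hom ≫ W', ?_⟩
  rw [← Preadditive.comp_zsmul, hW']
  simp only [Category.assoc, Iso.hom_inv_id_assoc]

end Kerv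

end Vale.Agent.P236K.St5
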