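import Vale.Agent.P236K.St5.Range
import Vale.Agent.P236K.St5.Asm
import Vale.Agent.P236Z.Det.T1Eq

/-!
# P236, block St5: the powers of `ξ` and the classes `b_j` do not vanish

A relation in the homotopy of `H ⊗ H ⊗ H` lifts to `B ⊗ B ⊗ B` and is evaluated on the chains of
orientations of `H ⊗ MU` which differ by powers of the automorphism `x + a x ^ 3` of the additive law.
-/

open CategoryTheory MonoidalCategory MonObj Limits Pretriangulated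

set_option linter.unusedSectionVars false

universe u

namespace Vale.Agent.P236K.St5

open Vale.Agent.P251 Vale.Agent.P251.S Vale.Agent.P251.T Vale.Agent.P251.M Vale.Agent.P251.F
  Vale.Agent.P251.I Vale.Agent.P251.H EvenSpheres Vale.Agent.P257.H80 Vale.Agent.P236Z
  Vale.Agent.P236Z.Dt

section Series

open PowerSeries

variable {A : Type} [CommRing A]

theorem cube3 {R : Type*} [CommRing R] (h : (3 : R) = 0) (x y : R) :
    (x + y) ^ 3 = x ^ 3 + y ^ 3 := by linear_combination (x ^ 2 * y + x * y ^ 2) * h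

/-- the series `x + a x ^ 3` -/
noncomputable def gA (a : A) : InvSeries A := strictMk fun n => if n = 1 then a else 0

theorem gA_val (a : A) : (gA a).val = X + C a * X ^ 3 := by
  ext n
  rcases n with _ | n
  · rw [coeff_zero_eq_constantCoeff_apply, (gA a).cc]
    simp
  · change (gA a).c n = _
    rcases n with _ | n
    · simp [gA, coeff_X, coeff_X_pow]
    · rw [gA, c_succ_strictMk, map_add, coeff_C_mul, coeff_X, coeff_X_pow,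
        if_neg (show ¬ n + 1 + 1 = 1 by omega), zero_add]
      by_cases h : n = 1
      · rw [if_pos h, if_pos (by omega), _root_.mul_one]
      · rw [if_neg h, if_neg (by omega), mul_zero]

theorem subst_gA (a : A) {σ : Type} (z : MvPowerSeries σ A)
    (hz : MvPowerSeries.constantCoeff z = 0) :
    (subst z (gA a).val : MvPowerSeries σ A) = z + MvPowerSeries.C a * z ^ 3 := by
  have hs : HasSubst z := HasSubst.of_constantCoeff_zero hz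
  rw [gA_val, subst_add hs, subst_mul hs, subst_pow hs, subst_X hs, subst_C]

theorem gA_mul (a : A) (h : InvSeries A) : (gA a * h).val = h.val + C a * h.val ^ 3 :=
  subst_gA a h.val h.cc

variable (h3 : (3 : A) = 0) (a : A)

include h3

theorem three_mv (σ : Type) : (3 : MvPowerSeries σ A) = 0 := by
  rw [← map_ofNat (MvPowerSeries.C : A →+* MvPowerSeries σ A) 3, h3, map_zero]

theorem gA_smul : gA a • P251.F.addLaw A = P251.F.addLaw A := by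
  rw [InvSeries.smul_eq_iff_isHom]
  refine ⟨(gA a).cc, ?_⟩
  have h0 : ∀ i, MvPowerSeries.constantCoeff
      (subst (MvPowerSeries.X i : MvPowerSeries (Fin 2) A) (gA a).val) = 0 := fun i => by
    rw [subst_gA a _ (by simp)]
    simp
  refine Eq.trans ?_ (subst_addLaw _ _ (h0 0) (h0 1)).symm
  change subst (P251.F.addLaw A).ps _ = _
  rw [addLaw_ps, subst_gA a _ (by simp), subst_gA a _ (by simp), subst_gA a _ (by simp),
    cube3 (three_mv h3 _)]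
  ring

theorem gA_two : (gA a * gA a).val = X + 2 * C a * X ^ 3 + C a ^ 4 * X ^ 9 := by
  rw [gA_mul, gA_val, cube3 (three_mv h3 Unit)]
  ring

theorem gA_three : (gA a * (gA a * gA a)).val = X + C (a ^ 13) * X ^ 27 := by
  have h : (3 : PowerSeries A) = 0 := three_mv h3 Unit
  rw [gA_mul, gA_two h3, cube3 h, cube3 h, map_pow]
  linear_combination (C a * X ^ 3 + 3 * C a ^ 4 * X ^ 9) * h

theorem gA_two_c : (gA a * gA a).c 1 = 0 ∧ (gA a * gA a).c 2 = 2 * a := by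
  have h : (2 : PowerSeries A) * C a = C (2 * a) := by rw [map_mul, map_ofNat]
  rw [InvSeries.c, InvSeries.c, gA_two h3, h, ← map_pow C a 4]
  simp only [map_add, coeff_X, coeff_X_pow, coeff_C_mul]
  norm_num

theorem gA_three_c (i : ℕ) (hi : ¬ 26 ∣ i + 1) : (gA a * (gA a * gA a)).c (i + 1) = 0 := by
  rw [InvSeries.c, gA_three h3, map_add, coeff_C_mul, coeff_X, coeff_X_pow, if_neg (by omega),
    if_neg (by omega), mul_zero, add_zero]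

end Series

variable {T : Type u} [Category.{0} T] [Preadditive T] [HasZeroObject T]
    [HasShift T ℤ] [∀ n : ℤ, (shiftFunctor T n).Additive] [Pretriangulated T] [IsTriangulated T]
    [MonoidalCategory T] [SymmetricCategory T] [TensorTriangulated T] [MonoidalClosed T]
    [HasCoproducts.{0} T] [HasProducts.{0} T] [StableCat T]
    {F : SpaceFunctor T} {e : F.S.obj CCF ≅ (stdEven T).L} {D : MUData T}

section Chain

theorem c2_pow_ne (hU : MUUniv e D) {K : T} [MonObj K] [IsCommMonObj K] (k : D.R ⟶ K) [IsMonHom k]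
    (hK : η[K] ≠ 0) (m : ℕ) : (ser (k ≫ inlM K D.R) (inrM K D.R)).c 2 ^ m ≠ 0 := by
  intro h
  obtain ⟨b, -, hw⟩ := D.exists_basis_of k hU
  have h2 : D.toKR k = pairM (k ≫ inlM K D.R) (inrM K D.R) :=
    eq_pairM (D.v_zero_toKR k) (D.v_one_toKR k)
  have h1 : b.w (Finsupp.single 1 m) = 0 := by
    apply of_injective
    rw [hw, HRing_map_congr' h2, Cob.last, Finsupp.mapDomain_single, ← MvPolynomial.X_pow_eq_monomial,
      map_pow, map_pow, of_zero, ← h, ser_c]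
    rfl
  have h3 := b.expansion_unique (𝟙_ T) (b.k (Finsupp.single 1 m)) {Finsupp.single 1 m}
    (fun j => if hj : b.k (Finsupp.single 1 m) - b.k j = 0 then
      ((stdEven T).castIso _ 0 hj).hom ≫ (stdEven T).zero.inv ≫ η[K] ≫ (ρ_ K).inv else 0) (by
      rw [Finset.sum_singleton, h1, gact, gsmul, EvenSpheres.ext, MonoidalPreadditive.zero_tensor,
        comp_zero, zero_comp]) _ (Finset.mem_singleton_self _)
  rw [dif_pos (sub_self _), Preadditive.IsIso.comp_left_eq_zero,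
    Preadditive.IsIso.comp_left_eq_zero, Preadditive.IsIso.comp_right_eq_zero] at h3
  exact hK h3

variable {hU : MUUniv e D} {n : ℕ} (Q : BD D hU n) {N : T} [MonObj N] [IsCommMonObj N]

theorem BD.step (h3 : (3 : ℤ) • η[N] = 0) (ho : X.Odd0 N) {a : HRing (stdEven T) N}
    (ha : IsHomog N 2 a) (f : Q.B ⟶ N) [IsMonHom f] (hf : lawOf (Q.b ≫ f) = P251.F.addLaw _) :
    ∃ (f' : Q.B ⟶ N) (_ : IsMonHom f'), lawOf (Q.b ≫ f') = P251.F.addLaw _ ∧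
      ser (Q.b ≫ f) (Q.b ≫ f') = gA a := by
  obtain ⟨u', hu', h⟩ := exists_of_ser hU (Q.b ≫ f) (fun n => if n = 1 then a else 0) fun m => by
    by_cases hm : m = 1
    · subst hm
      rwa [if_pos rfl]
    · rw [if_neg hm]
      exact ⟨0, (of_zero _).symm⟩
  have h1 : lawOf u' = P251.F.addLaw _ := by
    rw [← ser_smul (Q.b ≫ f), h, hf]
    exact gA_smul (three_ring h3) a
  obtain ⟨f', hf', rfl⟩ := Q.desc_add h3 ho u' h1
  exact ⟨f', hf', h1, h⟩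

/-- A class of `B ⊗ B` as a function on series. -/
theorem BD.exists_fun {w : ℤ} (hw : w < 3 ^ n - 1) (h26 : ¬ (26 : ℤ) ∣ w) (ho : X.Odd0 N)
    (y : (stdEven T).S w ⟶ Q.B ⊗ Q.B) :
    ∃ P : InvSeries (HRing (stdEven T) N) → HRing (stdEven T) N,
      (∀ s, (∀ i, ¬ 26 ∣ i + 1 → s.c (i + 1) = 0) → P s = 0) ∧
      ∀ (f f' : Q.B ⟶ N) [IsMonHom f] [IsMonHom f'], lawOf (Q.b ≫ f') = P251.F.addLaw _ →
        HRing.of (stdEven T) N w (y ≫ descM f f') = P (ser (Q.b ≫ f) (Q.b ≫ f')) := by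
  obtain ⟨t, c, h1, h2⟩ := Q.exists_poly hw y
  refine ⟨fun s => ∑ a ∈ t, (c a : HRing (stdEven T) N) * a.prod fun i m => s.c (i + 1) ^ m,
    fun s hs => Finset.sum_eq_zero fun a ha => ?_, fun f f' _ _ hl => h2 N f f' ho hl⟩
  obtain ⟨i, hi, h⟩ : ∃ i ∈ a.support, ¬ 26 ∣ i + 1 := by
    by_contra h
    push Not at h
    apply h26
    rw [← h1 a ha]
    refine Finset.dvd_sum fun i hi => Dvd.dvd.mul_left ?_ _
    exact_mod_cast h i hi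
  rw [Finsupp.prod, Finset.prod_eq_zero hi (by
    rw [hs i h, zero_pow (Finsupp.mem_support_iff.1 hi)]), mul_zero]

theorem of_tau {t : Cob Laz 1} (ht : IsT1 3 t) {K : T} [MonObj K] [IsCommMonObj K] (b : D.R ⟶ K)
    [IsMonHom b] (f f' : K ⟶ N) [IsMonHom f] [IsMonHom f'] (h : (ser (b ≫ f) (b ≫ f')).c 1 = 0) :
    HRing.of (stdEven T) N 2 (tau b ht ≫ descM f f') = 8 * (ser (b ≫ f) (b ≫ f')).c 2 := by
  obtain ⟨q, hq⟩ := Det.t1_eq ht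
  have h1 : L2 b ≫ descM f f' = pairM (b ≫ f) (b ≫ f') := by
    apply eq_pairM
    · rw [L2, Am.v_lift_assoc]
      change (b ≫ inlM K K) ≫ _ = _
      rw [Category.assoc, inlM_descM]
    · rw [L2, Am.v_lift_assoc]
      change (b ≫ inrM K K) ≫ _ = _
      rw [Category.assoc, inrM_descM]
  rw [tau, Category.assoc, h1, ← HRing.map_of, D.of_evw]
  change HRing.map _ (D.ev 1 t) = _
  rw [hq, map_add, map_add, map_mul, map_mul, map_mul, map_mul, ← ser_c, ← ser_c, h, zero_mul,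
    add_zero, map_ofNat, map_ofNat]

theorem tau_map {t : Cob Laz 1} (ht : IsT1 3 t) {K : T} [MonObj K] [IsCommMonObj K] (b : D.R ⟶ K)
    [IsMonHom b] (κ : K ⟶ N) [IsMonHom κ] : tau b ht ≫ (κ ⊗ₘ κ) = tau (b ≫ κ) ht := by
  rw [tau, tau, L2_eq, L2_eq, Category.assoc, Category.assoc, tensorHom_comp_tensorHom]

variable {H : T} [MonObj H] [IsCommMonObj H] (hH : Tr.IsHF 3 η[H])

include hH in
theorem BD.exists_chain : ∃ (N : T) (_ : MonObj N) (_ : IsCommMonObj N) (a : HRing (stdEven T) N)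
    (f₀ f₁ f₂ f₃ : Q.B ⟶ N) (_ : IsMonHom f₀) (_ : IsMonHom f₁) (_ : IsMonHom f₂) (_ : IsMonHom f₃),
    X.Odd0 N ∧ (3 : HRing (stdEven T) N) = 0 ∧ (∀ m, a ^ m ≠ 0) ∧
      lawOf (Q.b ≫ f₀) = P251.F.addLaw _ ∧ lawOf (Q.b ≫ f₁) = P251.F.addLaw _ ∧
      lawOf (Q.b ≫ f₂) = P251.F.addLaw _ ∧ lawOf (Q.b ≫ f₃) = P251.F.addLaw _ ∧
      ser (Q.b ≫ f₀) (Q.b ≫ f₁) = gA a ∧ ser (Q.b ≫ f₁) (Q.b ≫ f₂) = gA a ∧
      ser (Q.b ≫ f₂) (Q.b ≫ f₃) = gA a := by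
  obtain ⟨u, hu⟩ := exists_thom D hH.conc
  obtain ⟨κ, hκ, rfl⟩ := Q.exists_kappa hH u
  have h3 : (3 : ℤ) • η[H ⊗ D.R] = 0 := three_hom (inlM H D.R) (BD.three_H hH)
  have ho : X.Odd0 (H ⊗ D.R) := odd_R hU (Q.b ≫ κ) (BD.odd_H hH)
  have ha : IsHomog (H ⊗ D.R) 2 ((ser ((Q.b ≫ κ) ≫ inlM H D.R) (inrM H D.R)).c 2) := by
    refine ⟨D.evw 1 2 ⟨MvPolynomial.X (0, 1), Cob.isWt_X _ _⟩ ≫
      pairM ((Q.b ≫ κ) ≫ inlM H D.R) (inrM H D.R), ?_⟩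
    rw [← HRing.map_of, D.of_evw, ser_c]
  have h0 : lawOf (Q.b ≫ κ ≫ inlM H D.R) = P251.F.addLaw _ := by
    rw [lawOf_congr (Category.assoc _ _ _).symm, lawOf_comp,
      lawOf_conc hU (BD.three_H hH) hH.conc, map_addLaw]
  obtain ⟨f₁, _, l₁, s₁⟩ := Q.step h3 ho ha _ h0
  obtain ⟨f₂, _, l₂, s₂⟩ := Q.step h3 ho ha _ l₁
  obtain ⟨f₃, _, l₃, s₃⟩ := Q.step h3 ho ha _ l₂
  refine ⟨H ⊗ D.R, _, inferInstance, _, κ ≫ inlM H D.R, f₁, f₂, f₃, inferInstance, ‹_›, ‹_›, ‹_›,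
    ho, three_ring h3, c2_pow_ne hU _ fun h => ?_, h0, l₁, l₂, l₃, s₁, s₂, s₃⟩
  have h1 := (hH.ord 1).1 (by rw [h, smul_zero])
  norm_num at h1

end Chain

section Main

variable [LocallySmall.{0} T] (hU : MUUniv e D) {H : T} [MonObj H] [IsCommMonObj H]
  (hH : Tr.IsHF 3 η[H]) (u : D.R ⟶ H) [IsMonHom u] {t : Cob Laz 1} (ht : IsT1 3 t)

theorem BD.cell {hU : MUUniv e D} {n : ℕ} (Q : BD D hU n) : BigCell T 0 Q.B :=
  P257.H762.bigCell_of_conn D.conn_unit fun k hk x => Q.van' (by omega) (by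
    have : (0 : ℤ) < 3 ^ n := by positivity
    omega) x

omit [IsCommMonObj H] in
include hH D in
theorem cell_H : BigCell T 0 H :=
  P257.H762.bigCell_of_conn D.conn_unit fun k hk x => hH.conc k (by omega) x

theorem isHomog_of {K : T} [MonObj K] {w : ℤ} (x : (stdEven T).S w ⟶ K) :
    IsHomog K w (HRing.of (stdEven T) K w x) := ⟨x, rfl⟩

include hU hH in
/-- The image of `t_1` is not nilpotent. -/
theorem tau_pow_ne (m : ℕ) : HRing.of (stdEven T) _ 2 (tau u ht) ^ m ≠ 0 := by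
  intro h
  obtain ⟨Q⟩ := nonempty_BD hU (n := m + 1) (by omega)
  obtain ⟨κ, hκ, rfl⟩ := Q.exists_kappa hH u
  obtain ⟨z, hz⟩ := (isHomog_of (tau Q.b ht)).pow m
  have h1 : (m : ℤ) * 2 < 3 ^ (m + 1) - 1 := by
    have h2 : m < 3 ^ m := Nat.lt_pow_self (by norm_num)
    have h3 : (m : ℤ) < 3 ^ m := by exact_mod_cast h2
    rw [pow_succ]
    omega
  have h2 : z = 0 := inj_of_cofIn D.conn_unit (cofIn_tensor (Q.cofIn_kappa hH κ)
    (Q.cofIn_kappa hH κ) Q.cell (cell_H (D := D) hH)) (by omega) (by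
      apply of_injective
      rw [← HRing.map_of, ← hz, map_pow, HRing.map_of, tau_map, h, zero_comp, of_zero])
  obtain ⟨N, _, _, a, f₀, f₁, -, -, _, _, -, -, -, h3, ha, -, -, -, -, s₁, -, -⟩ :=
    Q.exists_chain hH
  have h4 := congrArg (HRing.map (descM f₀ f₁)) hz
  rw [h2, of_zero, map_zero, map_pow, HRing.map_of, of_tau ht _ _ _ (by rw [s₁]; simp [gA]), s₁,
    show (8 : HRing (stdEven T) N) * (gA a).c 2 = -a by
      simp only [gA, c_succ_strictMk, if_true]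
      linear_combination (3 * a) * h3, neg_pow] at h4
  exact ha m ((isUnit_neg_one.pow m).mul_right_eq_zero.1 h4)

include hU hH in
/-- The cochain `b_j` is not a sum of classes which miss one of the three factors. -/
theorem nb_core (j : ℕ) (y₀ y₁ y₂ : (stdEven T).S (Det.w0 j) ⟶ H ⊗ H) :
    bq (HRing.of (stdEven T) _ 2 (tau u ht ≫ (H ◁ inlM H H)) ^ 3 ^ j)
      (HRing.of (stdEven T) _ 2 (tau u ht ≫ inrM H (H ⊗ H)) ^ 3 ^ j) ≠
    HRing.of (stdEven T) _ _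
      (y₀ ≫ inrM H (H ⊗ H) + y₁ ≫ (H ◁ inrM H H) + y₂ ≫ (H ◁ inlM H H)) := by
  intro h
  obtain ⟨Q⟩ := nonempty_BD hU (n := j + 2) (by omega)
  obtain ⟨κ, hκ, rfl⟩ := Q.exists_kappa hH u
  have hw : Det.w0 j < 3 ^ (j + 2) - 1 := by
    have h2 : (0 : ℤ) < 3 ^ j := by positivity
    rw [Det.w0, pow_succ, pow_succ, pow_succ]
    omega
  have h26 : ¬ (26 : ℤ) ∣ Det.w0 j := fun h1 => by
    have h2 : (13 : ℤ) ∣ 3 ^ (j + 1) := by
      rw [Det.w0] at h1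
      omega
    have h3 : Prime (13 : ℤ) := Int.prime_iff_natAbs_prime.2 (by norm_num)
    have h4 := h3.dvd_of_dvd_pow h2
    norm_num at h4
  have hc := Q.cofIn_kappa hH κ
  have hc2 := cofIn_tensor hc hc Q.cell (cell_H (D := D) hH)
  have hc3 := cofIn_tensor hc hc2 (Q.cell.tensor Q.cell 0 rfl) (cell_H (D := D) hH)
  obtain ⟨y₀, rfl⟩ := surj_of_cofIn D.conn_unit hc2 (by omega) y₀
  obtain ⟨y₁, rfl⟩ := surj_of_cofIn D.conn_unit hc2 (by omega) y₁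
  obtain ⟨y₂, rfl⟩ := surj_of_cofIn D.conn_unit hc2 (by omega) y₂
  have e0 : inrM Q.B (Q.B ⊗ Q.B) ≫ (κ ⊗ₘ κ ⊗ₘ κ) = (κ ⊗ₘ κ) ≫ inrM H (H ⊗ H) := inr_ten _ _
  have e1 : (Q.B ◁ inrM Q.B Q.B) ≫ (κ ⊗ₘ κ ⊗ₘ κ) = (κ ⊗ₘ κ) ≫ (H ◁ inrM H H) := by
    rw [whiskerLeft_comp_tensorHom, tensorHom_comp_whiskerLeft, inr_ten]
  have e2 : (Q.B ◁ inlM Q.B Q.B) ≫ (κ ⊗ₘ κ ⊗ₘ κ) = (κ ⊗ₘ κ) ≫ (H ◁ inlM H H) := by
    rw [whiskerLeft_comp_tensorHom, tensorHom_comp_whiskerLeft, inl_ten]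
  obtain ⟨z, hz⟩ : IsHomog _ (Det.w0 j)
      (bq (HRing.of (stdEven T) _ 2 (tau Q.b ht ≫ (Q.B ◁ inlM Q.B Q.B)) ^ 3 ^ j)
        (HRing.of (stdEven T) _ 2 (tau Q.b ht ≫ inrM Q.B (Q.B ⊗ Q.B)) ^ 3 ^ j)) := by
    have h1 := (isHomog_of (tau Q.b ht ≫ (Q.B ◁ inlM Q.B Q.B))).pow (3 ^ j)
    have h2 := (isHomog_of (tau Q.b ht ≫ inrM Q.B (Q.B ⊗ Q.B))).pow (3 ^ j)
    obtain ⟨a, ha⟩ := h1.mul (h2.pow 2) (l := Det.w0 j) (by rw [Det.w0]; push_cast; ring)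
    obtain ⟨b, hb⟩ := (h1.pow 2).mul h2 (l := Det.w0 j) (by rw [Det.w0]; push_cast; ring)
    exact ⟨a + b, by rw [bq, ha, hb, of_add]⟩
  have h1 : z = y₀ ≫ inrM Q.B (Q.B ⊗ Q.B) + y₁ ≫ (Q.B ◁ inrM Q.B Q.B) +
      y₂ ≫ (Q.B ◁ inlM Q.B Q.B) := inj_of_cofIn D.conn_unit hc3 (by omega) (by
    apply of_injective
    rw [← HRing.map_of, ← hz, map_bq, map_pow, map_pow, HRing.map_of, HRing.map_of,
      Category.assoc, Category.assoc, e0, e2, ← Category.assoc, ← Category.assoc, tau_map, h]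
    simp only [Preadditive.add_comp, Category.assoc, e0, e1, e2])
  obtain ⟨N, _, _, a, f₀, f₁, f₂, f₃, _, _, _, _, ho, h3, ha, l₀, l₁, l₂, l₃, s₁, s₂, s₃⟩ :=
    Q.exists_chain hH
  obtain ⟨P₀, z₀, p₀⟩ := Q.exists_fun hw h26 ho y₀
  obtain ⟨P₁, z₁, p₁⟩ := Q.exists_fun hw h26 ho y₁
  obtain ⟨P₂, z₂, p₂⟩ := Q.exists_fun hw h26 ho y₂
  have key : ∀ (f f' f'' : Q.B ⟶ N) [IsMonHom f] [IsMonHom f'] [IsMonHom f''],
      lawOf (Q.b ≫ f') = P251.F.addLaw _ → lawOf (Q.b ≫ f'') = P251.F.addLaw _ →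
      ∀ s s' s'', ser (Q.b ≫ f) (Q.b ≫ f') = s → ser (Q.b ≫ f') (Q.b ≫ f'') = s' →
        s' * s = s'' → s.c 1 = 0 → s'.c 1 = 0 →
        bq ((8 * s.c 2) ^ 3 ^ j) ((8 * s'.c 2) ^ 3 ^ j) = P₀ s' + P₁ s'' + P₂ s := by
    rintro f f' f'' _ _ _ l l' _ _ _ rfl rfl rfl c c'
    have h4 := congrArg (HRing.map (descM f (descM f' f''))) hz
    have d0 : inrM Q.B (Q.B ⊗ Q.B) ≫ descM f (descM f' f'') = descM f' f'' := inrM_descM _ _
    have d1 : (Q.B ◁ inrM Q.B Q.B) ≫ descM f (descM f' f'') = descM f f'' := by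
      rw [descM, ← Category.assoc, whiskerLeft_comp_tensorHom, inrM_descM, descM]
    have d2 : (Q.B ◁ inlM Q.B Q.B) ≫ descM f (descM f' f'') = descM f f' := by
      rw [descM, ← Category.assoc, whiskerLeft_comp_tensorHom, inlM_descM, descM]
    rw [map_bq, map_pow, map_pow, HRing.map_of, HRing.map_of, HRing.map_of, h1, Category.assoc,
      Category.assoc, d0, d2, of_tau ht _ _ _ c, of_tau ht _ _ _ c'] at h4
    simp only [Preadditive.add_comp, Category.assoc, d0, d1, d2] at h4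
    rw [h4, of_add, of_add, p₀ _ _ l', p₁ _ _ l', p₂ _ _ l,
      ser_trans (Q.b ≫ f) (Q.b ≫ f') (Q.b ≫ f'')]
  have o1 : (1 : InvSeries (HRing (stdEven T) N)).c 1 = 0 := InvSeries.c_one_succ 0
  have o2 : (1 : InvSeries (HRing (stdEven T) N)).c 2 = 0 := InvSeries.c_one_succ 1
  have g1 : (gA a).c 1 = 0 := by simp [gA]
  have g2 : 8 * (gA a).c 2 = -a := by
    simp only [gA, c_succ_strictMk, if_true]
    linear_combination (3 * a) * h3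
  obtain ⟨g3, g4⟩ := gA_two_c h3 a
  have g5 : 8 * (gA a * gA a).c 2 = a := by
    rw [g4]
    linear_combination (5 * a) * h3
  have s02 : ser (Q.b ≫ f₀) (Q.b ≫ f₂) = gA a * gA a := by rw [ser_trans _ (Q.b ≫ f₁), s₁, s₂]
  have k1 := key f₀ f₀ f₁ l₀ l₁ _ _ _ (ser_self _) s₁ (_root_.mul_one _) o1 g1
  have k2 := key f₀ f₁ f₁ l₁ l₁ _ _ _ s₁ (ser_self _) (_root_.one_mul _) g1 o1
  have k3 := key f₀ f₀ f₂ l₀ l₂ _ _ _ (ser_self _) s02 (_root_.mul_one _) o1 g3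
  have k4 := key f₀ f₂ f₂ l₂ l₂ _ _ _ s02 (ser_self _) (_root_.one_mul _) g3 o1
  have k5 := key f₀ f₁ f₂ l₁ l₂ _ _ _ s₁ s₂ rfl g1 g1
  have k6 := key f₀ f₂ f₃ l₂ l₃ _ _ _ s02 s₃ rfl g3 g1
  have hodd : Odd (3 ^ j) := Odd.pow (by decide)
  rw [z₁ _ (gA_three_c h3 a), g2, g5, hodd.neg_pow] at k6
  rw [g2, hodd.neg_pow] at k5
  rw [z₂ _ fun i _ => InvSeries.c_one_succ i, o2, mul_zero, zero_pow hodd.pos.ne'] at k1 k3
  rw [z₀ _ fun i _ => InvSeries.c_one_succ i, o2, mul_zero, zero_pow hodd.pos.ne'] at k2 k4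
  apply ha (3 ^ j * 3)
  rw [pow_mul]
  simp only [bq] at k1 k2 k3 k4 k5 k6
  linear_combination k5 + k6 + k1 - k2 - k4 + (P₀ (gA a) + (a ^ 3 ^ j) ^ 3) * h3

end Main

section Ker

variable {H Y₁ Y₂ P : T} [MonObj H] [IsCommMonObj H] {d₀ : H ⟶ Y₁} {b₀ : Y₁ ⟶ (𝟙_ T)⟦(1 : ℤ)⟧}
  (h₀ : P251.H.Dist η[H] d₀ b₀) {k₁ : H ⊗ Y₁ ⟶ Y₂} {b₁ : Y₂ ⟶ Y₁⟦(1 : ℤ)⟧}
  (h₁ : P251.H.Dist (unitMap H Y₁) k₁ b₁)

include h₀

omit [IsCommMonObj H] in
theorem surj_d (z : P ⟶ H ⊗ Y₁) : ∃ y : P ⟶ H ⊗ H, y ≫ (H ◁ d₀) = z := by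
  obtain ⟨d, hd⟩ := Tr.dist_tensL h₀ H
  refine hd.lift₃ z ?_
  have h1 : (H ◁ η[H]) ≫ μ[H] ≫ (ρ_ H).inv = 𝟙 _ := by
    rw [MonObj.mul_one_assoc, Iso.hom_inv_id]
  rw [← Category.comp_id d, ← CategoryTheory.Functor.map_id, ← h1, Functor.map_comp,
    reassoc_of% hd.zero₃₁, zero_comp, comp_zero]

include h₁ in
/-- The classes of `H ⊗ H ⊗ H` whose projection is hit by the first differential. -/
theorem ker_proj (c : P ⟶ H ⊗ H ⊗ H) (z : P ⟶ H ⊗ Y₁)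
    (h : c ≫ (H ◁ ((H ◁ d₀) ≫ k₁)) = z ≫ k₁ ≫ unitMap H Y₂) : ∃ y₀ y₁ y₂ : P ⟶ H ⊗ H,
      c = y₀ ≫ inrM H (H ⊗ H) + y₁ ≫ (H ◁ inrM H H) + y₂ ≫ (H ◁ inlM H H) := by
  obtain ⟨y₀, rfl⟩ := surj_d h₀ z
  obtain ⟨d, hd⟩ := Tr.dist_tensL h₁ H
  obtain ⟨a, ha⟩ := hd.lift₂ ((c - y₀ ≫ unitMap H (H ⊗ H)) ≫ (H ◁ (H ◁ d₀))) (by
    rw [Category.assoc, ← MonoidalCategory.whiskerLeft_comp, Preadditive.sub_comp, h,
      Category.assoc, Category.assoc, ← unitMap_nat, Category.assoc, sub_self])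
  obtain ⟨y₁, rfl⟩ := surj_d h₀ a
  obtain ⟨d', hd'⟩ := Tr.dist_tensL h₀ H
  obtain ⟨d'', hd''⟩ := Tr.dist_tensL hd' H
  obtain ⟨a', ha'⟩ := hd''.lift₂ (c - y₀ ≫ unitMap H (H ⊗ H) - y₁ ≫ (H ◁ unitMap H H)) (by
    rw [Preadditive.sub_comp, ← ha, Category.assoc, Category.assoc,
      ← MonoidalCategory.whiskerLeft_comp, ← MonoidalCategory.whiskerLeft_comp, unitMap_nat,
      sub_self])
  refine ⟨y₀, y₁, a' ≫ (H ◁ (ρ_ H).hom), ?_⟩
  rw [Category.assoc, ← MonoidalCategory.whiskerLeft_comp, inlM, Iso.hom_inv_id_assoc, ha']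
  change c = y₀ ≫ unitMap H (H ⊗ H) + y₁ ≫ (H ◁ unitMap H H) + _
  abel

end Ker

/-- A boundary of the second line comes from the three classes of `H ⊗ H`. -/
theorem ker_tower {H X₀ X₁ X₂ P : T} [MonObj H] [IsCommMonObj H] (a₀ : X₀ ≅ 𝟙_ T) {g₀ : X₁ ⟶ X₀}
    {d₀ : H ⊗ X₀ ⟶ X₁⟦(1 : ℤ)⟧} (D₀ : P251.H.Dist g₀ (unitMap H X₀) d₀) {g₁ : X₂ ⟶ X₁}
    {d₁ : H ⊗ X₁ ⟶ X₂⟦(1 : ℤ)⟧} (D₁ : P251.H.Dist g₁ (unitMap H X₁) d₁)
    (hP : ∀ a : P⟦(1 : ℤ)⟧ ⟶ H, a = 0) (y : P ⟶ X₂) (hy : y ≫ g₁ ≫ g₀ ≫ a₀.hom = 0)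
    (c : (P⟦(1 : ℤ)⟧)⟦(1 : ℤ)⟧ ⟶ H ⊗ H ⊗ H) (hc : ((y ≫ unitMap H X₂)⟦(1 : ℤ)⟧')⟦(1 : ℤ)⟧' =
      c ≫ (H ◁ ((H ◁ ((ρ_ H).inv ≫ (H ◁ a₀.inv) ≫ d₀)) ≫ (csh H 1 X₁).hom ≫ d₁⟦(1 : ℤ)⟧')) ≫
        (csh H 1 _).hom ≫ (csh H 1 X₂).hom⟦(1 : ℤ)⟧') : ∃ y₀ y₁ y₂ : _ ⟶ H ⊗ H,
      c = y₀ ≫ inrM H (H ⊗ H) + y₁ ≫ (H ◁ inrM H H) + y₂ ≫ (H ◁ inlM H H) := by
  have h₀ := Tr.dist_iso D₀.rot a₀.symm ((ρ_ H).symm ≪≫ whiskerLeftIso H a₀.symm) (Iso.refl _)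
    (f' := η[H]) (g' := (ρ_ H).inv ≫ (H ◁ a₀.inv) ≫ d₀) (by
      change η[H] ≫ (ρ_ H).inv ≫ (H ◁ a₀.inv) = a₀.inv ≫ unitMap H _
      rw [unitMap_nat, ← unit_rho, Category.assoc, Iso.hom_inv_id_assoc]) (by simp)
  have h₁ := Tr.dist_iso D₁.rot.rot.rot.rot (Iso.refl _) (-(csh H 1 X₁))
    (Iso.refl _) (f' := unitMap H _) (g' := (csh H 1 X₁).hom ≫ d₁⟦(1 : ℤ)⟧') (by
      rw [Preadditive.neg_iso_hom, Preadditive.comp_neg, unitMap_csh, Iso.refl_hom,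
        Category.id_comp]) (by simp)
  have h2 : y ≫ g₁ = 0 := by
    rw [← Category.assoc, ← Category.assoc, Preadditive.IsIso.comp_right_eq_zero] at hy
    obtain ⟨a, ha⟩ := D₀.lift₁ ((y ≫ g₁)⟦(1 : ℤ)⟧') (by
      rw [← Functor.map_comp, hy, Functor.map_zero])
    have h3 := hP (a ≫ (H ◁ a₀.hom) ≫ (ρ_ H).hom)
    rw [← Category.assoc, Preadditive.IsIso.comp_right_eq_zero,
      Preadditive.IsIso.comp_right_eq_zero] at h3
    rw [← (shiftFunctor T (1 : ℤ)).map_eq_zero_iff, ← ha, h3, zero_comp]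
  obtain ⟨z, hz⟩ := D₁.lift₁ (y⟦(1 : ℤ)⟧') (by rw [← Functor.map_comp, h2, Functor.map_zero])
  refine ker_proj h₀ h₁ c (z⟦(1 : ℤ)⟧' ≫ (csh H 1 _).inv) ?_
  rw [← cancel_mono ((csh H 1 _).hom ≫ (csh H 1 X₂).hom⟦(1 : ℤ)⟧'), Category.assoc, ← hc,
    Functor.map_comp, ← hz, ← unitMap_csh]
  simp only [Functor.map_comp, Category.assoc, Iso.inv_hom_id_assoc, unitMap_csh_assoc]

open Vale.Agent.P251.St Vale.Agent.P251.St.SHCat St

theorem tau0 : TAU0 := by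
  intro T S H _ _ hH D hU u _ t ht h
  have := locallySmall_self.{0} T.C
  refine tau_pow_ne hU hH u ht 1 ?_
  rw [pow_one, show tau u ht = 0 from h, of_zero]

theorem hi3_of (h4 : PI4) : HI3 := by
  intro T S H _ _ hH ξ hξ j h
  have := locallySmall_self.{0} T.C
  obtain ⟨D, hU⟩ := exists_mu S
  obtain ⟨t, ht⟩ := T1 3
  obtain ⟨u, hu⟩ := exists_thom D hH.conc
  let β₀ : (stdEven T.C).S 2 ≅ P236Z.St.sph T 4 := B.sphE T.C 2
  obtain ⟨m, -, hτ⟩ := exists_tau S hH h4 tau0 hU u ht hξ β₀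
  obtain ⟨β, hβ⟩ := exists_big β₀ j
  refine tau_pow_ne hU hH u ht (3 ^ j) ?_
  rw [hτ, ofz, smul_pow, ← hβ, h, comp_zero, of_zero, smul_zero]

theorem nb_of (h4 : PI4) (j : ℕ) : NB j := by
  rintro T S H _ _ hH A ξ hξ b ⟨c₀, hb⟩ ⟨y, hy, rfl⟩
  have := locallySmall_self.{0} T.C
  obtain ⟨D, hU⟩ := exists_mu S
  obtain ⟨t, ht⟩ := T1 3
  obtain ⟨u, hu⟩ := exists_thom D hH.conc
  let β₀ : (stdEven T.C).S 2 ≅ P236Z.St.sph T 4 := B.sphE T.C 2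
  obtain ⟨m, -, hτ⟩ := exists_tau S hH h4 tau0 hU u ht hξ β₀
  obtain ⟨β, hβ⟩ := of_cob β₀ j
  have hex : ∀ Y : T.C, St.exch H Y = (csh H 1 Y).hom := fun Y => by
    rw [csh_one, ← id_tensorHom]
    rfl
  have hp : proj A = (H ◁ ((H ◁ ((ρ_ H).inv ≫ (H ◁ A.base.inv) ≫ A.d 0)) ≫
      (csh H 1 (A.X 1)).hom ≫ (A.d 1)⟦(1 : ℤ)⟧')) ≫ (csh H 1 _).hom ≫
        (csh H 1 (A.X 2)).hom⟦(1 : ℤ)⟧' := by
    rw [← hex, ← hex, ← hex, ← id_tensorHom, ← id_tensorHom, ← id_tensorHom]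
    rfl
  obtain ⟨y₀, y₁, y₂, h⟩ := ker_tower A.base (Top.tower_dist A 0) (Top.tower_dist A 1)
    (fun a => by
      rw [← cancel_epi ((shiftFunctorAdd T.C (stem j) 1).app _).hom, comp_zero]
      refine hH.conc _ ?_ _
      have h1 : (0 : ℤ) < 3 ^ j := by positivity
      rw [stem, pow_succ]
      omega) y hy (c₀.hom ≫ cob ξ j) (by
      rw [Category.assoc, ← hp]
      refine Eq.trans ?_ hb
      rw [Top.hur_eq]
      rfl)
  have h1 : β.hom ≫ cob ξ j = (β.hom ≫ c₀.inv ≫ y₀) ≫ inrM H (H ⊗ H) +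
      (β.hom ≫ c₀.inv ≫ y₁) ≫ (H ◁ inrM H H) + (β.hom ≫ c₀.inv ≫ y₂) ≫ (H ◁ inlM H H) := by
    simp only [Category.assoc, ← Preadditive.comp_add]
    rw [← h, Iso.inv_hom_id_assoc]
  refine nb_core hU hH u ht j (m ^ 3 ^ (j + 1) • (β.hom ≫ c₀.inv ≫ y₀))
    (m ^ 3 ^ (j + 1) • (β.hom ≫ c₀.inv ≫ y₁)) (m ^ 3 ^ (j + 1) • (β.hom ≫ c₀.inv ≫ y₂)) ?_
  simp only [Preadditive.zsmul_comp, ← smul_add]
  rw [← h1, ofz, hβ, hτ, Preadditive.zsmul_comp, Preadditive.zsmul_comp, ofz, ofz,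
    smul_pow, smul_pow, bq, bq]
  simp only [zsmul_eq_mul]
  push_cast
  ring

theorem hi2_of' (h4 : PI4) : HI2 := hi2_of h4 tau0

theorem hopfM_of' (h4 : PI4) {j : ℕ} (h : St.HopfM' j) : St.HopfM j :=
  hopfM_of h4 tau0 (hi3_of h4) h

theorem final_of' (h4 : PI4) (k2 : KERV 2) (k3 : KERV 3) (h1 : NoOne) : FINAL :=
  final_of h4 tau0 (nb_of h4 0) (nb_of h4 2) (nb_of h4 3) k2 k3 h1

theorem st_of' (h4 : PI4) : ST := st_of h4 tau0 (nb_of h4 0) (nb_of h4 2) (nb_of h4 3)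

end Vale.Agent.P236K.St5
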